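import Vale.Agent.P058.Cost

/-! The abelian relation with cheap negative part. -/

namespace Vale.Agent.P058

open scoped TensorProduct

noncomputable section

set_option linter.unusedSectionVars false

variable {d : ℕ}

section biadd
variable {G : Type*} [AddCommGroup G] {Q : Type*} [AddCommGroup Q] [Module ℚ Q]

lemma io3_mem (u v w : G) : io u * io v * io w ∈ aug G ^ 3 := by
  rw [pow_succ, pow_two]
  exact Ideal.mul_mem_mul (Ideal.mul_mem_mul (io_mem _) (io_mem _)) (io_mem _)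

/-- the biadditive form induced on a quotient killing the cube of the augmentation ideal -/
def biadd (π : GR G →ₗ[ℚ] Q) (h : ∀ x ∈ aug G ^ 3, π x = 0) : G →+ G →+ Q :=
  AddMonoidHom.mk' (fun u => AddMonoidHom.mk' (fun v => π (io u * io v)) (fun v v' => by
      have := h _ (io3_mem u v v')
      rw [io_add, mul_add, mul_add, map_add, map_add, ← mul_assoc, this, add_zero]))
    (fun u u' => by
      ext v
      have := h _ (io3_mem u u' v)
      simp only [AddMonoidHom.mk'_apply, AddMonoidHom.add_apply]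
      rw [io_add, add_mul, add_mul, map_add, map_add, this, add_zero])

lemma biadd_apply (π : GR G →ₗ[ℚ] Q) (h : ∀ x ∈ aug G ^ 3, π x = 0) (u v : G) :
    biadd π h u v = π (io u * io v) := rfl

end biadd

/-- rational-linear evaluation -/
def evQ (x : Fin d → ℝ) : VV d →ₗ[ℚ] ℝ := (ev x).restrictScalars ℚ

/-- weight of a tensor -/
def wtT : VV d ⊗[ℚ] VV d →ₗ[ℚ] WW d :=
  TensorProduct.lift (LinearMap.mk₂ ℚ wt2
    (fun u u' v => by ext j k; simp [wt2, add_mul])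
    (fun c u v => by ext j k; simp [wt2])
    (fun u v v' => by ext j k; simp [wt2, mul_add])
    (fun c u v => by ext j k; simp [wt2]))

lemma wtT_tmul (u v : VV d) : wtT (u ⊗ₜ[ℚ] v) = wt2 u v := rfl

variable {ι : Type*} [Fintype ι] [DecidableEq ι]

/-- the tensor criterion over the reals, in tensor form -/
def CritR (a : ι → Fin d → ℝ) : Prop :=
  ∃ Θ : VV d ⊗[ℚ] VV d, (∀ i, TensorProduct.map (evQ (a i)) (evQ (a i)) Θ = 0) ∧ wtT Θ = 1

/-- evaluation on group rings -/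
def evR (x : Fin d → ℝ) : GR (VV d) →ₐ[ℚ] GR ℝ := push (ev x).toAddMonoidHom

lemma evR_io (x : Fin d → ℝ) (u : VV d) : evR x (io u) = io (ev x u) := push_io _ _
lemma evR_xg (x : Fin d → ℝ) (u : VV d) : evR x (xg u) = xg (ev x u) := push_xg _ _

lemma evR_surj (x : Fin d → ℝ) : Function.Surjective (evR x) :=
  push_surj _ fun t => ⟨cst d t, ev_cst x t⟩

/-- kernel of evaluation -/
def KK (x : Fin d → ℝ) : Ideal (GR (VV d)) := RingHom.ker (evR x)

lemma mem_KK {x : Fin d → ℝ} {ρ : GR (VV d)} : ρ ∈ KK x ↔ evR x ρ = 0 := RingHom.mem_ker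

/-- elements vanishing at the points of `S`, of order three -/
def LL (a : ι → Fin d → ℝ) (S : Finset ι) : Ideal (GR (VV d)) :=
  (⨅ j ∈ S, KK (a j)) ⊓ aug (VV d) ^ 3

lemma mem_LL {a : ι → Fin d → ℝ} {S : Finset ι} {ρ : GR (VV d)} :
    ρ ∈ LL a S ↔ (∀ j ∈ S, evR (a j) ρ = 0) ∧ ρ ∈ aug (VV d) ^ 3 := by
  simp [LL, mem_KK]

lemma LL_mul_le (a : ι → Fin d → ℝ) (S : Finset ι) (j : ι) :
    LL a S * KK (a j) ≤ LL a (insert j S) := by
  rw [Ideal.mul_le]
  intro r hr s hs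
  rw [mem_LL] at hr ⊢
  refine ⟨fun k hk => ?_, Ideal.mul_mem_right _ _ hr.2⟩
  rw [map_mul]
  rcases Finset.mem_insert.mp hk with rfl | hk
  · rw [mem_KK.mp hs, mul_zero]
  · rw [hr.1 k hk, zero_mul]

lemma aug_le_map (x : Fin d → ℝ) : aug ℝ ≤ (aug (VV d)).map (evR x) := by
  rw [aug, Ideal.span_le]
  rintro _ ⟨t, rfl⟩
  have := Ideal.mem_map_of_mem (evR x) (io_mem (cst d t))
  rwa [evR_io, ev_cst] at this

lemma aug_le_map_KK {x y : Fin d → ℝ} (h : x ≠ y) : aug ℝ ≤ (KK y).map (evR x) := by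
  obtain ⟨u, hx, hy⟩ := exists_sep h
  rw [aug, Ideal.span_le]
  rintro _ ⟨t, rfl⟩
  have h1 : io (t • u) ∈ KK y := by
    rw [mem_KK, evR_io, map_smul, hy, smul_zero, io_zero]
  have := Ideal.mem_map_of_mem (evR x) h1
  rwa [evR_io, map_smul, hx, smul_eq_mul, mul_one] at this

lemma aug_pow_le_map {a : ι → Fin d → ℝ} (ha : Function.Injective a) (i : ι) (S : Finset ι)
    (hi : i ∉ S) : aug ℝ ^ (S.card + 3) ≤ (LL a S).map (evR (a i)) := by
  induction S using Finset.induction_on with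
  | empty =>
    have : LL a ∅ = aug (VV d) ^ 3 := by simp [LL]
    rw [this, Ideal.map_pow]
    simpa using Ideal.pow_right_mono (aug_le_map (a i)) 3
  | insert j S hj ih =>
    have hiS : i ∉ S := fun h => hi (Finset.mem_insert_of_mem h)
    have hij : a i ≠ a j := fun h => hi (by rw [ha h]; exact Finset.mem_insert_self _ _)
    rw [Finset.card_insert_of_notMem hj, show S.card + 1 + 3 = (S.card + 3) + 1 by ring, pow_succ]
    calc _ ≤ (LL a S).map (evR (a i)) * (KK (a j)).map (evR (a i)) :=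
          Ideal.mul_mono (ih hiS) (aug_le_map_KK hij)
      _ = (LL a S * KK (a j)).map (evR (a i)) := (Ideal.map_mul _ _ _).symm
      _ ≤ _ := Ideal.map_mono (LL_mul_le a S j)

lemma exists_rho1 {a : ι → Fin d → ℝ} (h : CritR a) :
    ∃ ρ : GR (VV d), wR ρ = 1 ∧ ∀ i, evR (a i) ρ ∈ aug ℝ ^ 3 := by
  obtain ⟨Θ, h1, h2⟩ := h
  let π : GR ℝ →ₗ[ℚ] (GR ℝ ⧸ aug ℝ ^ 3) := (Ideal.Quotient.mkₐ ℚ (aug ℝ ^ 3)).toLinearMap
  have hπ : ∀ x, π x = 0 ↔ x ∈ aug ℝ ^ 3 := fun x => Ideal.Quotient.eq_zero_iff_mem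
  let B := biadd π fun x hx => (hπ x).mpr hx
  let β : ℝ ⊗[ℚ] ℝ →+ (GR ℝ ⧸ aug ℝ ^ 3) := TensorProduct.liftAddHom B (fun r s t => by
    rw [map_rat_smul B, map_rat_smul (B s)]; rfl)
  have key : ∀ Θ : VV d ⊗[ℚ] VV d, ∃ ρ : GR (VV d), wR ρ = wtT Θ + (wtT Θ).transpose ∧
      ∀ i, π (evR (a i) ρ) = β (TensorProduct.map (evQ (a i)) (evQ (a i)) Θ) := by
    intro Θ
    induction Θ using TensorProduct.induction_on with
    | zero => exact ⟨0, by simp, by simp⟩
    | tmul u v =>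
      refine ⟨io u * io v, ?_, fun i => ?_⟩
      · rw [wR_io_mul, wtT_tmul]
        congr 1
        ext j k; simp [wt2, mul_comm]
      · rw [map_mul, evR_io, evR_io, TensorProduct.map_tmul]; rfl
    | add x y hx hy =>
      obtain ⟨ρ, h1, h2⟩ := hx
      obtain ⟨σ, h3, h4⟩ := hy
      refine ⟨ρ + σ, ?_, fun i => ?_⟩
      · rw [map_add, map_add, h1, h3, Matrix.transpose_add]; abel
      · rw [map_add, map_add, map_add, map_add, h2, h4]
  obtain ⟨ρ, h3, h4⟩ := key Θ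
  refine ⟨(1 / 2 : ℚ) • ρ, ?_, fun i => ?_⟩
  · rw [map_smul, h3, h2, Matrix.transpose_one, ← two_smul ℚ, smul_smul]; norm_num
  · rw [map_smul]
    apply smul_mem_ideal
    rw [← hπ, h4, h1, map_zero]

lemma exists_rho_pow {a : ι → Fin d → ℝ} (h : CritR a) (c : ℕ) :
    ∃ ρ : GR (VV d), wR ρ = 1 ∧ ∀ i, evR (a i) ρ ∈ aug ℝ ^ (c + 3) := by
  induction c with
  | zero => simpa using exists_rho1 h
  | succ c ih =>
    obtain ⟨ρ, h1, h2⟩ := ih
    have hne : ((2 : ℚ) ^ 2 - 2 ^ (c + 3)) ≠ 0 := by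
      have : (2 : ℚ) ^ 2 < 2 ^ (c + 3) := pow_lt_pow_right₀ (by norm_num) (by omega)
      linarith
    refine ⟨((2 : ℚ) ^ 2 - 2 ^ (c + 3))⁻¹ • (dil _ 2 ρ - ((2 : ℚ) ^ (c + 3)) • ρ), ?_, fun i => ?_⟩
    · rw [map_smul, map_sub, map_smul, wR_dil, h1, ← sub_smul, smul_smul]
      push_cast
      rw [inv_mul_cancel₀ hne, one_smul]
    · rw [map_smul]
      apply smul_mem_ideal
      have := dil_aug_pow' 2 (c + 3) (h2 i)
      rw [map_sub, map_smul, evR, push_dil, show c + 1 + 3 = c + 3 + 1 by ring]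
      exact this

lemma exists_rho0 {a : ι → Fin d → ℝ} (ha : Function.Injective a) (h : CritR a) :
    ∃ ρ : GR (VV d), wR ρ = 1 ∧ ∀ i, evR (a i) ρ = 0 := by
  obtain ⟨ρ, h1, h2⟩ := exists_rho_pow h (Fintype.card ι)
  have : ∀ i, ∃ σ ∈ LL a (Finset.univ.erase i), evR (a i) σ = evR (a i) ρ := by
    intro i
    have h3 := aug_pow_le_map ha i (Finset.univ.erase i) (Finset.notMem_erase _ _)
    have h4 : aug ℝ ^ (Fintype.card ι + 3) ≤ aug ℝ ^ ((Finset.univ.erase i).card + 3) :=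
      Ideal.pow_le_pow_right (by have := Finset.card_le_univ (Finset.univ.erase i); omega)
    exact (Ideal.mem_map_iff_of_surjective _ (evR_surj (a i))).mp (h3 (h4 (h2 i)))
  choose σ hσ1 hσ2 using this
  refine ⟨ρ - ∑ i, σ i, ?_, fun i => ?_⟩
  · rw [map_sub, map_sum, h1, Finset.sum_eq_zero fun i _ => wR_aug3 (mem_LL.mp (hσ1 i)).2, sub_zero]
  · rw [map_sub, map_sum, Finset.sum_eq_single i, hσ2, sub_self]
    · intro j _ hj
      exact (mem_LL.mp (hσ1 j)).1 i (by simp [Ne.symm hj])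
    · simp

lemma aug_le_KK_sup (x : Fin d → ℝ) : aug (VV d) ≤ KK x ⊔ TT d := by
  rw [aug, Ideal.span_le]
  rintro _ ⟨u, rfl⟩
  have e : io u = io (u + cst d (-ev x u)) + xg (u + cst d (-ev x u)) * io (cst d (ev x u)) := by
    have : u = (u + cst d (-ev x u)) + cst d (ev x u) := by
      rw [add_assoc, ← cst_add, neg_add_cancel, cst_zero, add_zero]
    conv_lhs => rw [this]
    simp only [io, xg_add]; ring
  rw [e]
  refine Submodule.add_mem_sup ?_ (Ideal.mul_mem_left _ _ (io_cst_mem _))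
  rw [mem_KK, evR_io, map_add, ev_cst, add_neg_cancel, io_zero]

lemma aug_pow_le_sup (a : ι → Fin d → ℝ) (S : Finset ι) :
    aug (VV d) ^ (S.card + 3) ≤ LL a S ⊔ TT d := by
  induction S using Finset.induction_on with
  | empty =>
    have : LL a ∅ = aug (VV d) ^ 3 := by simp [LL]
    rw [this]; simp
  | insert j S hj ih =>
    rw [Finset.card_insert_of_notMem hj, show S.card + 1 + 3 = (S.card + 3) + 1 by ring, pow_succ]
    calc _ ≤ (LL a S ⊔ TT d) * (KK (a j) ⊔ TT d) := Ideal.mul_mono ih (aug_le_KK_sup _)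
      _ ≤ _ := by
        rw [Ideal.sup_mul, Ideal.mul_sup]
        have h1 : LL a S * TT d ≤ TT d := Ideal.mul_le_right
        have h2 : TT d * (KK (a j) ⊔ TT d) ≤ TT d := Ideal.mul_le_left
        exact sup_le (sup_le ((LL_mul_le a S j).trans le_sup_left)
          (h1.trans le_sup_right)) (h2.trans le_sup_right)

/-- relations of weight zero, and translation differences -/
def JJ (a : ι → Fin d → ℝ) : Submodule ℚ (GR (VV d)) where
  carrier := {ρ | ∃ κ θ, (∀ i, evR (a i) κ = 0) ∧ wR κ = 0 ∧ θ ∈ TT d ∧ ρ = κ + θ}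
  zero_mem' := ⟨0, 0, by simp, by simp, zero_mem _, by simp⟩
  add_mem' := by
    rintro _ _ ⟨κ, θ, h1, h2, h3, rfl⟩ ⟨κ', θ', h1', h2', h3', rfl⟩
    exact ⟨κ + κ', θ + θ', by simp [h1, h1'], by simp [h2, h2'], add_mem h3 h3', by abel⟩
  smul_mem' := by
    rintro c _ ⟨κ, θ, h1, h2, h3, rfl⟩
    exact ⟨c • κ, c • θ, by simp [h1], by simp [h2], smul_mem_ideal _ _ h3, by simp⟩

/-- negligible elements -/
def NN (a : ι → Fin d → ℝ) : Submodule ℚ (GR (VV d)) where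
  carrier := {ρ | ∀ ε : ℝ, 0 < ε → ∃ σ, ρ - σ ∈ JJ a ∧ Cst 1 σ ε}
  zero_mem' := fun ε hε => ⟨0, by simp, Cst.zero.mono hε.le⟩
  add_mem' := by
    intro x y hx hy ε hε
    obtain ⟨σ, h1, h2⟩ := hx (ε / 2) (by positivity)
    obtain ⟨τ, h3, h4⟩ := hy (ε / 2) (by positivity)
    refine ⟨σ + τ, ?_, by simpa using h2.add h4⟩
    have := add_mem h1 h3
    convert this using 1; abel
  smul_mem' := by
    intro c x hx ε hε
    obtain ⟨σ, h1, h2⟩ := hx (ε / (|(c : ℝ)| + 1)) (by positivity)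
    refine ⟨c • σ, by rw [← smul_sub]; exact Submodule.smul_mem _ _ h1, (h2.smul c).mono ?_⟩
    rw [mul_div_assoc', div_le_iff₀ (by positivity)]
    nlinarith [abs_nonneg (c : ℝ)]

lemma JJ_le_NN (a : ι → Fin d → ℝ) : JJ a ≤ NN a :=
  fun _ h ε hε => ⟨0, by simpa using h, Cst.zero.mono hε.le⟩

lemma NN_closed {a : ι → Fin d → ℝ} {ρ : GR (VV d)}
    (h : ∀ ε : ℝ, 0 < ε → ∃ σ, ρ - σ ∈ NN a ∧ Cst 1 σ ε) : ρ ∈ NN a := by
  intro ε hε
  obtain ⟨σ, h1, h2⟩ := h (ε / 2) (by positivity)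
  obtain ⟨τ, h3, h4⟩ := h1 (ε / 2) (by positivity)
  refine ⟨σ + τ, ?_, by simpa using h2.add h4⟩
  convert h3 using 1; abel

lemma aug_big_le_NN (a : ι → Fin d → ℝ) {ρ : GR (VV d)}
    (h : ρ ∈ aug (VV d) ^ (Fintype.card ι + 3)) : ρ ∈ NN a := by
  obtain ⟨κ, hκ, θ, hθ, rfl⟩ := Submodule.mem_sup.mp (aug_pow_le_sup a Finset.univ h)
  rw [mem_LL] at hκ
  exact JJ_le_NN a ⟨κ, θ, fun i => hκ.1 i (Finset.mem_univ _), wR_aug3 hκ.2, hθ, rfl⟩

lemma aug_step (a : ι → Fin d → ℝ) (k : ℕ)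
    (h : ∀ ρ ∈ aug (VV d) ^ (k + 3 + 1), ρ ∈ NN a) : ∀ ρ ∈ aug (VV d) ^ (k + 3), ρ ∈ NN a := by
  intro ρ hρ
  apply NN_closed
  intro ε hε
  obtain ⟨t, ht⟩ := Cst.exists_one ρ
  have ht0 := ht.nonneg
  obtain ⟨M, hM⟩ := exists_nat_gt (t / ε + 1)
  have hM1 : (1 : ℝ) < M := lt_of_le_of_lt (by have : 0 ≤ t / ε := by positivity
                                               linarith) hM
  have hM0 : (0 : ℝ) < M := by linarith
  have hMq : (M : ℚ) ≠ 0 := by
    have : 0 < M := by exact_mod_cast hM0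
    positivity
  refine ⟨((M : ℚ) ^ (k + 3))⁻¹ • dil _ M ρ, ?_, ?_⟩
  · have h1 := h _ (dil_aug_pow' M (k + 3) hρ)
    have h2 := (NN a).smul_mem (-((M : ℚ) ^ (k + 3))⁻¹) h1
    convert h2 using 1
    rw [smul_sub, smul_smul, neg_mul, inv_mul_cancel₀ (pow_ne_zero _ hMq)]
    module
  · refine ((ht.dil M).smul_nonneg (by positivity)).mono ?_
    push_cast
    have e : ((M : ℝ) ^ (k + 3))⁻¹ * ((M : ℝ) ^ 2 * t) = t / (M : ℝ) ^ (k + 1) := by
      field_simp; ring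
    rw [e, div_le_iff₀ (by positivity)]
    have h3 : (M : ℝ) ≤ (M : ℝ) ^ (k + 1) := le_self_pow₀ hM1.le (by omega)
    have h4 : t < ε * M := by
      have : t / ε < M := by linarith
      rw [div_lt_iff₀ hε] at this; linarith
    nlinarith

lemma aug3_le_NN (a : ι → Fin d → ℝ) : ∀ ρ ∈ aug (VV d) ^ 3, ρ ∈ NN a := by
  have : ∀ k, (∀ ρ ∈ aug (VV d) ^ (k + 3), ρ ∈ NN a) → ∀ ρ ∈ aug (VV d) ^ 3, ρ ∈ NN a := by
    intro k
    induction k with
    | zero => simp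
    | succ k ih => intro h; exact ih (aug_step a k (by rwa [show k + 3 + 1 = k + 1 + 3 by ring]))
  exact this _ fun ρ h => aug_big_le_NN a h

end

end Vale.Agent.P058
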