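import Vale.Agent.P058.Abel

/-! The abelian relation with cheap negative part, degree two analysis. -/

namespace Vale.Agent.P058

noncomputable section

set_option linter.unusedSectionVars false

variable {d : ℕ} {ι : Type*} [Fintype ι] [DecidableEq ι] (a : ι → Fin d → ℝ)

/-- quotient by negligible elements -/
abbrev QQ := GR (VV d) ⧸ NN a

/-- projection to the quotient -/
def pQ : GR (VV d) →ₗ[ℚ] QQ a := (NN a).mkQ

lemma pQ_eq_zero {ρ : GR (VV d)} : pQ a ρ = 0 ↔ ρ ∈ NN a := Submodule.Quotient.mk_eq_zero _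

/-- bound on a class -/
def Bd (q : QQ a) (t : ℝ) : Prop := ∃ σ, pQ a σ = q ∧ Cst 1 σ t

variable {a}

lemma Bd.zero_of {q : QQ a} (h : ∀ ε : ℝ, 0 < ε → Bd a q ε) : q = 0 := by
  obtain ⟨ρ, rfl⟩ : ∃ ρ, pQ a ρ = q := Submodule.Quotient.mk_surjective _ q
  rw [pQ_eq_zero]
  refine NN_closed fun ε hε => ?_
  obtain ⟨σ, h1, h2⟩ := h ε hε
  exact ⟨σ, by rw [← pQ_eq_zero, map_sub, h1, sub_self], h2⟩

lemma Bd.mono {q : QQ a} {s t : ℝ} (h : Bd a q s) (hst : s ≤ t) : Bd a q t := by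
  obtain ⟨σ, h1, h2⟩ := h
  exact ⟨σ, h1, h2.mono hst⟩

lemma Bd.sub {q q' : QQ a} {s t : ℝ} (h : Bd a q s) (h' : Bd a q' t) : Bd a (q - q') (s + t) := by
  obtain ⟨σ, h1, h2⟩ := h
  obtain ⟨σ', h1', h2'⟩ := h'
  exact ⟨σ - σ', by rw [map_sub, h1, h1'], h2.sub h2'⟩

lemma Bd.smul {q : QQ a} {s : ℝ} (h : Bd a q s) (c : ℚ) : Bd a (c • q) (|(c : ℝ)| * s) := by
  obtain ⟨σ, h1, h2⟩ := h
  exact ⟨c • σ, by rw [map_smul, h1], h2.smul c⟩

variable (a)

/-- class of a line -/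
def yQ (u : VV d) : QQ a := pQ a (xg u)

lemma Bd_yQ (u : VV d) : Bd a (yQ a u) (nsq u) := ⟨xg u, rfl, by simpa using Cst.xg (θ := 1) u⟩

lemma yQ_zero : yQ a 0 = 0 :=
  Bd.zero_of fun ε hε => (Bd_yQ a 0).mono (by rw [nsq_zero]; exact hε.le)

/-- the biadditive form -/
def BQ : VV d →+ VV d →+ QQ a :=
  biadd (pQ a) fun x hx => (pQ_eq_zero a).mpr (aug3_le_NN a x hx)

lemma BQ_apply (u v : VV d) : BQ a u v = yQ a (u + v) - yQ a u - yQ a v := by
  have : io u * io v = xg (u + v) - xg u - xg v + xg 0 := by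
    simp only [xg_add, io, xg_zero]; ring
  rw [BQ, biadd_apply, this, map_add, map_sub, map_sub]
  have h0 := yQ_zero a
  simp only [yQ] at h0 ⊢
  rw [h0, add_zero]

lemma BQ_symm (u v : VV d) : BQ a u v = BQ a v u := by
  rw [BQ_apply, BQ_apply, add_comm u v]; abel

lemma Bd_BQ (u v : VV d) : Bd a (BQ a u v) (3 * (nsq u + nsq v)) := by
  rw [BQ_apply]
  refine (((Bd_yQ a (u + v)).sub (Bd_yQ a u)).sub (Bd_yQ a v)).mono ?_
  linarith [nsq_add_le u v]

lemma BQ_cst (t : ℝ) (v : VV d) : BQ a (cst d t) v = 0 := by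
  rw [BQ, biadd_apply, pQ_eq_zero]
  exact JJ_le_NN a ⟨0, _, by simp, by simp, Ideal.mul_mem_right (io v) _ (io_cst_mem t),
    (zero_add _).symm⟩

lemma yQ_eq (u : VV d) : yQ a u = (1 / 2 : ℚ) • BQ a u u := by
  let A : VV d →+ QQ a := AddMonoidHom.mk' (fun u => yQ a u - (1 / 2 : ℚ) • BQ a u u) (fun u v => by
    have h1 : yQ a (u + v) = BQ a u v + yQ a u + yQ a v := by rw [BQ_apply]; abel
    simp only [map_add, AddMonoidHom.add_apply]
    rw [h1, BQ_symm a v u]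
    module)
  have hA : ∀ u, Bd a (A u) (4 * nsq u) := fun u => by
    refine ((Bd_yQ a u).sub ((Bd_BQ a u u).smul (1 / 2))).mono (le_of_eq ?_)
    rw [abs_of_nonneg (by norm_num)]; push_cast; ring
  have : A u = 0 := by
    refine Bd.zero_of fun ε hε => ?_
    obtain ⟨M, hM⟩ := exists_nat_gt (4 * nsq u / ε)
    have h0 := nsq_nonneg u
    have hM0 : (0 : ℝ) < M := lt_of_le_of_lt (by positivity) hM
    have e : A u = (M : ℚ) • A ((M : ℝ)⁻¹ • u) := by
      rw [Nat.cast_smul_eq_nsmul, ← map_nsmul, ← Nat.cast_smul_eq_nsmul ℝ, smul_smul,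
        mul_inv_cancel₀ hM0.ne', one_smul]
    rw [e]
    refine ((hA _).smul M).mono ?_
    rw [nsq_smul]
    push_cast
    rw [abs_of_pos hM0]
    rw [div_lt_iff₀ hε] at hM
    have : (M : ℝ) * (4 * ((M : ℝ)⁻¹ ^ 2 * nsq u)) = 4 * nsq u / M := by field_simp
    rw [this, div_le_iff₀ hM0]; linarith
  exact sub_eq_zero.mp this

lemma BQ_rat (q : ℚ) (u v : VV d) : BQ a ((q : ℝ) • u) v = BQ a u ((q : ℝ) • v) := by
  rw [Rat.cast_smul_eq_qsmul, Rat.cast_smul_eq_qsmul, map_rat_smul (BQ a), map_rat_smul (BQ a u)]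
  rfl

lemma Bd_BQ_small (u v : VV d) (t : ℚ) (ht : 0 < t) (e : ℝ) (he : |e| ≤ (t : ℝ) ^ 2) :
    Bd a (BQ a (e • u) v) (3 * (t : ℝ) ^ 2 * (nsq u + nsq v)) := by
  have ht' : (0 : ℝ) < t := by exact_mod_cast ht
  have e1 : e • u = (t : ℝ) • ((e / t) • u) := by
    rw [smul_smul]; congr 1; field_simp
  rw [e1, BQ_rat]
  refine (Bd_BQ a _ _).mono ?_
  rw [nsq_smul, nsq_smul]
  have h2 : (e / t) ^ 2 ≤ (t : ℝ) ^ 2 := by
    rw [div_pow, div_le_iff₀ (by positivity), ← sq_abs e]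
    have := mul_self_le_mul_self (abs_nonneg e) he
    nlinarith
  nlinarith [nsq_nonneg u, nsq_nonneg v, mul_le_mul_of_nonneg_right h2 (nsq_nonneg u)]

lemma BQ_real (s : ℝ) (u v : VV d) : BQ a (s • u) v = BQ a u (s • v) := by
  rw [← sub_eq_zero]
  refine Bd.zero_of fun ε hε => ?_
  have h0 : 0 ≤ nsq u + nsq v := add_nonneg (nsq_nonneg u) (nsq_nonneg v)
  obtain ⟨t, ht0, ht1⟩ := exists_rat_btwn (show (0 : ℝ) < min 1 (ε / (6 * (nsq u + nsq v) + 1)) from
    lt_min one_pos (by positivity))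
  have ht2 : (t : ℝ) < 1 := ht1.trans_le (min_le_left _ _)
  have ht3 : (t : ℝ) < ε / (6 * (nsq u + nsq v) + 1) := ht1.trans_le (min_le_right _ _)
  obtain ⟨q, hq1, hq2⟩ := exists_rat_btwn (show s < s + (t : ℝ) ^ 2 by nlinarith)
  have he : |s - q| ≤ (t : ℝ) ^ 2 := by rw [abs_le]; constructor <;> nlinarith
  have e : BQ a (s • u) v - BQ a u (s • v) = BQ a ((s - q) • u) v - BQ a ((s - q) • v) u := by
    rw [sub_smul, sub_smul, map_sub, map_sub, AddMonoidHom.sub_apply, AddMonoidHom.sub_apply,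
      BQ_rat, BQ_symm a (s • v) u, BQ_symm a ((q : ℝ) • v) u]
    abel
  rw [e]
  have ht0' : (0 : ℚ) < t := by exact_mod_cast ht0
  refine ((Bd_BQ_small a u v t ht0' _ he).sub (Bd_BQ_small a v u t ht0' _ he)).mono ?_
  rw [lt_div_iff₀ (by positivity)] at ht3
  have : (t : ℝ) ^ 2 ≤ t := by nlinarith
  nlinarith [mul_le_mul_of_nonneg_right this h0]

/-- the linear functional on weights -/
def LamQ : WW d →+ QQ a :=
  AddMonoidHom.mk' (fun M => (1 / 2 : ℚ) • ∑ j, ∑ k, BQ a (M j k • ee j) (ee k)) (fun M N => by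
    simp [add_smul, Finset.sum_add_distrib])

lemma yQ_eq_Lam (u : VV d) : yQ a u = LamQ a (wt u) := by
  rw [yQ_eq, LamQ, AddMonoidHom.mk'_apply]
  congr 1
  have h1 : ∀ v, BQ a u v = ∑ j, BQ a (u (some j) • ee j) v := fun v => by
    conv_lhs => rw [decomp u]
    rw [map_add, AddMonoidHom.add_apply, BQ_cst, zero_add, map_sum, AddMonoidHom.finsetSum_apply]
  rw [h1]
  refine Finset.sum_congr rfl fun j _ => ?_
  have h2 : ∀ w, BQ a w u = ∑ k, BQ a w (u (some k) • ee k) := fun w => by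
    conv_lhs => rw [decomp u]
    rw [map_add, BQ_symm a w (cst d _), BQ_cst, zero_add, map_sum]
  rw [h2]
  refine Finset.sum_congr rfl fun k _ => ?_
  rw [← BQ_real, smul_smul]
  simp [wt, wt2, mul_comm]

lemma pQ_eq_Lam (ρ : GR (VV d)) : pQ a ρ = LamQ a (wR ρ) := by
  induction ρ using GR.ind with
  | h0 => simp
  | hadd x y hx hy => simp [hx, hy]
  | hs c g =>
    rw [map_smul, map_smul, map_rat_smul (LamQ a), wR_xg, ← yQ_eq_Lam]; rfl

variable {a}

/-- The abelian relation with cheap negative part. -/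
theorem abelian_relation (ha : Function.Injective a) (h : CritR a) (η : ℝ) (hη : 0 < η) :
    ∃ (P N : Multiset (VV d)) (m : ℕ), 0 < m ∧ (∀ i, P.map (ev (a i)) = N.map (ev (a i))) ∧
      (P.map wt).sum = (N.map wt).sum + (m : ℝ) • (1 : WW d) ∧ cost N ≤ m * η := by
  obtain ⟨ρ, h1, h2⟩ := exists_rho0 ha h
  let D : GR (VV d) := ∑ j, xg (ee j)
  have hD : wR D = 1 := by simp only [D, map_sum, wR_xg, sum_wt_ee]
  have hD' : Cst 0 D 0 := by
    simpa using Cst.sum (θ := 0) Finset.univ (fun j : Fin d => xg (ee j)) _ fun j _ => Cst.xg (ee j)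
  have h3 : ρ - D ∈ NN a := by
    rw [← pQ_eq_zero, map_sub, pQ_eq_Lam, pQ_eq_Lam, h1, hD, sub_self]
  obtain ⟨σ, ⟨κ, θ, k1, k2, k3, k4⟩, h4⟩ := h3 (η / 2) (by positivity)
  obtain ⟨A, hA, h5⟩ := folner k3 1 (η / 2) (by positivity)
  have h6 : Cst 0 (A * (ρ - κ)) η := by
    have e : A * (ρ - κ) = A * D + (A * σ + A * (1 * θ)) := by
      have : ρ - κ = D + (σ + θ) := by linear_combination k4
      rw [this]; ring
    rw [e]
    simpa using (hA.c _ _ _ le_rfl hD').add ((hA.c _ _ _ zero_le_one h4).add h5).of_one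
  obtain ⟨m, P, N, hm, e1, e2⟩ := h6
  refine ⟨P, N, m, hm, fun i => ?_, ?_, by simpa using e2⟩
  · apply toR_inj
    have key : ∀ P : Multiset (VV d), evR (a i) (toR P) = toR (P.map (ev (a i))) := fun P => by
      have := lin_toR (evR (a i)).toLinearMap P
      simp only [AlgHom.toLinearMap_apply, evR_xg] at this
      rw [this, toR, Multiset.map_map]; rfl
    have := congrArg (evR (a i)) e1
    rw [map_smul, map_mul, map_sub, h2, k1, sub_zero, mul_zero, smul_zero, map_sub, key, key] at this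
    exact sub_eq_zero.mp this.symm
  · have := congrArg wR e1
    rw [map_smul, hA.w, map_sub, h1, k2, sub_zero, map_sub, lin_toR, lin_toR] at this
    simp only [wR_xg] at this
    rw [Nat.cast_smul_eq_nsmul] at this ⊢
    rw [this]; abel

end

end Vale.Agent.P058
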