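import Vale.Agent.P058.TwoW

/-! Transfer from the free group to words, through the maximal group of a minimal idempotent
ultrafilter. -/

namespace Vale.Agent.P058

noncomputable section

set_option linter.unusedSectionVars false

theorem exists_min_idem {M : Type*} [Nonempty M] [Semigroup M]
    [TopologicalSpace M] [CompactSpace M] [T2Space M]
    (hc : ∀ r : M, Continuous (· * r)) :
    ∃ e : M, e * e = e ∧ ∀ s, ∃ p, p * (s * e) = e := by
  let S : Set (Set M) := {N | IsClosed N ∧ N.Nonempty ∧ ∀ s, ∀ m ∈ N, s * m ∈ N}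
  obtain ⟨N, hN⟩ : ∃ N', Minimal (· ∈ S) N' := by
    refine zorn_superset _ fun c hcs hc => ?_
    refine
      ⟨⋂₀ c, ⟨isClosed_sInter fun t ht => (hcs ht).1, ?_, fun s m hm => ?_⟩, fun s hs =>
        Set.sInter_subset_of_mem hs⟩
    · obtain rfl | hcnemp := c.eq_empty_or_nonempty
      · rw [Set.sInter_empty]
        apply Set.univ_nonempty
      convert!
        @IsCompact.nonempty_iInter_of_directed_nonempty_isCompact_isClosed _ _ _ hcnemp.coe_sort
          ((↑) : c → Set M) ?_ ?_ ?_ ?_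
      · exact Set.sInter_eq_iInter
      · refine DirectedOn.directed_val (IsChain.directedOn hc.symm)
      exacts [fun i => (hcs i.prop).2.1, fun i => (hcs i.prop).1.isCompact, fun i => (hcs i.prop).1]
    · rw [Set.mem_sInter]
      exact fun t ht => (hcs ht).2.2 s m (Set.mem_sInter.mp hm t ht)
  obtain ⟨N_closed, N_ne, N_mul⟩ := hN.prop
  obtain ⟨e, he, hee⟩ := exists_idempotent_in_compact_subsemigroup hc N N_ne N_closed.isCompact
    (fun x _ y hy => N_mul x y hy)
  refine ⟨e, hee, fun s => ?_⟩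
  have : Set.range (· * (s * e)) = N := by
    apply hN.eq_of_subset
    · refine ⟨(isCompact_range (hc _)).isClosed, ⟨_, ⟨e, rfl⟩⟩, ?_⟩
      rintro t _ ⟨m, rfl⟩
      exact ⟨t * m, mul_assoc _ _ _⟩
    · rintro _ ⟨m, rfl⟩
      exact N_mul _ _ (N_mul _ _ he)
  rw [← this] at he
  exact he

/-- the maximal subgroup at an idempotent -/
def MaxGrp {M : Type*} [Semigroup M] (e : M) : Type _ := {s : M // e * s = s ∧ s * e = s}

/-- its group structure -/
@[reducible] def maxGrpGroup {M : Type*} [Semigroup M] (e : M) (he : e * e = e)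
    (h : ∀ s, ∃ p, p * (s * e) = e) : Group (MaxGrp e) :=
  letI : Mul (MaxGrp e) := ⟨fun s t => ⟨s.1 * t.1, by rw [← mul_assoc, s.2.1],
    by rw [mul_assoc, t.2.2]⟩⟩
  letI : One (MaxGrp e) := ⟨⟨e, he, he⟩⟩
  letI : Inv (MaxGrp e) := ⟨fun s => ⟨e * (h s.1).choose * e,
    by rw [← mul_assoc, ← mul_assoc, he], by rw [mul_assoc, he]⟩⟩
  Group.ofLeftAxioms (fun a b c => Subtype.ext (mul_assoc _ _ _)) (fun a => Subtype.ext a.2.1)
    (fun a => Subtype.ext (by
      have := (h a.1).choose_spec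
      change e * (h a.1).choose * e * a.1 = e
      generalize (h a.1).choose = p at this
      rw [a.2.2] at this
      rw [mul_assoc, a.2.1, mul_assoc, this, he]))

attribute [local instance] Ultrafilter.mul Ultrafilter.semigroup

variable {d : ℕ} {ι : Type*} [Fintype ι] [DecidableEq ι] {a : ι → Fin d → ℝ}

/-- tuples of words that are affine images of the configuration -/
def Hp (a : ι → Fin d → ℝ) (γ : WW d) (w : ι → FreeMonoid ℝ) : Prop :=
  ∃ l : List (VV d), (l.map wt).sum = γ ∧ ∀ i, w i = FreeMonoid.ofList (l.map (ev (a i)))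

/-- closure in ultrafilters -/
def Tp (a : ι → Fin d → ℝ) (γ : WW d) (t : ι → Ultrafilter (FreeMonoid ℝ)) : Prop :=
  ∀ U : ι → Set (FreeMonoid ℝ), (∀ i, U i ∈ t i) → ∃ w, Hp a γ w ∧ ∀ i, w i ∈ U i

lemma Tp.mul {γ δ : WW d} {s t : ι → Ultrafilter (FreeMonoid ℝ)} (hs : Tp a γ s) (ht : Tp a δ t) :
    Tp a (γ + δ) (fun i => s i * t i) := by
  intro U hU
  obtain ⟨w, ⟨l, h1, h2⟩, h3⟩ := hs (fun i => {m | ∀ᶠ m' in t i, m * m' ∈ U i}) fun i =>
    (Ultrafilter.eventually_mul (s i) (t i) (· ∈ U i)).mp (hU i)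
  obtain ⟨w', ⟨l', h1', h2'⟩, h3'⟩ := ht (fun i => {m' | w i * m' ∈ U i}) h3
  refine ⟨w * w', ⟨l ++ l', by simp [h1, h1'], fun i => ?_⟩, h3'⟩
  rw [Pi.mul_apply, h2, h2', List.map_append, FreeMonoid.ofList_append]

lemma Tp.const (p : Ultrafilter (FreeMonoid ℝ)) : Tp a 0 (fun _ => p) := by
  intro U hU
  have : (⋂ i, U i) ∈ p := Filter.iInter_mem.mpr hU
  obtain ⟨m, hm⟩ := Ultrafilter.nonempty_of_mem this
  refine ⟨fun _ => m, ⟨(FreeMonoid.toList m).map (cst d), ?_, fun i => ?_⟩,
    fun i => Set.mem_iInter.mp hm i⟩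
  · rw [List.map_map]
    apply List.sum_eq_zero
    simp only [List.mem_map]
    rintro _ ⟨t, -, rfl⟩
    exact wt_cst t
  · rw [List.map_map]
    have : (ev (a i) ∘ cst d) = id := by ext t; simp
    rw [this, List.map_id, FreeMonoid.ofList_toList]

lemma Tp.line (u : VV d) : Tp a (wt u) (fun i => pure (FreeMonoid.of (ev (a i) u))) := by
  intro U hU
  exact ⟨fun i => FreeMonoid.of (ev (a i) u), ⟨[u], by simp, fun i => rfl⟩, hU⟩

/-- Every finite colouring of words has a monochromatic isometric affine image. -/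
theorem word_ramsey (ha : Function.Injective a) (h : CritR a) {κ : Type*} [Finite κ]
    (c : List ℝ → κ) :
    ∃ l : List (VV d), (l.map wt).sum = 1 ∧ ∃ k, ∀ i, c (l.map (ev (a i))) = k := by
  obtain ⟨e, he, hmin⟩ := exists_min_idem (M := Ultrafilter (FreeMonoid ℝ))
    Ultrafilter.continuous_mul_left
  let _ := maxGrpGroup e he hmin
  have hmul : ∀ s t : MaxGrp e, (s * t).1 = s.1 * t.1 := fun _ _ => rfl
  let x : ℝ → MaxGrp e := fun t => ⟨e * pure (FreeMonoid.of t) * e,
    by rw [← mul_assoc, ← mul_assoc, he], by rw [mul_assoc, he]⟩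
  let φ : FF →* MaxGrp e := subst fun t => x t * (x 0)⁻¹
  have hφ : ∀ t, φ (XX t) = x t * (x 0)⁻¹ := subst_XX _ (mul_inv_cancel _)
  have key : ∀ γ t, Pos a γ t → Tp a γ (fun i => (φ (t i)).1) := by
    intro γ t ht
    induction ht with
    | const y => exact Tp.const _
    | line u =>
      have := (((Tp.const (a := a) e).mul (Tp.line u)).mul (Tp.const e)).mul (Tp.const ((x 0)⁻¹).1)
      simp only [zero_add, add_zero] at this
      simpa only [hφ, hmul] using this
    | mul _ _ ih1 ih2 => simpa only [Pi.mul_apply, map_mul, hmul] using ih1.mul ih2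
  have hcol : ∀ p : Ultrafilter (FreeMonoid ℝ), ∃ k, {m | c (FreeMonoid.toList m) = k} ∈ p := by
    intro p
    obtain ⟨k, hk⟩ := Ultrafilter.eq_pure_of_finite (p.map fun m => c (FreeMonoid.toList m))
    have : {k} ∈ p.map fun m => c (FreeMonoid.toList m) := by rw [hk]; exact Ultrafilter.mem_pure.mpr rfl
    exact ⟨k, this⟩
  choose col hcol using hcol
  obtain ⟨t, ht, k, hk⟩ := free_ramsey ha h fun g => col (φ g).1
  obtain ⟨w, ⟨l, h1, h2⟩, h3⟩ := key _ _ ht (fun _ => {m | c (FreeMonoid.toList m) = k}) fun i => by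
    have := hcol (φ (t i)).1
    rwa [hk i] at this
  refine ⟨l, h1, k, fun i => ?_⟩
  have := h3 i
  rwa [h2 i] at this

end

end Vale.Agent.P058
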