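import Mathlib

/-! Affine functions on `Fin d → ℝ`, their weights. -/

namespace Vale.Agent.P058

noncomputable section

/-- coefficient vectors of affine functions -/
abbrev VV (d : ℕ) := Option (Fin d) → ℝ

/-- weights -/
abbrev WW (d : ℕ) := Matrix (Fin d) (Fin d) ℝ

variable {d : ℕ}

/-- evaluation of an affine function at a point -/
def ev (x : Fin d → ℝ) : VV d →ₗ[ℝ] ℝ where
  toFun u := u none + ∑ j, u (some j) * x j
  map_add' u v := by simp [add_mul, Finset.sum_add_distrib]; ring
  map_smul' c u := by simp [mul_add, Finset.mul_sum, mul_assoc]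

lemma ev_apply (x : Fin d → ℝ) (u : VV d) : ev x u = u none + ∑ j, u (some j) * x j := rfl

/-- constant affine function -/
def cst (d : ℕ) (t : ℝ) : VV d := fun α => α.elim t fun _ => 0

@[simp] lemma cst_none (t : ℝ) : cst d t none = t := rfl
@[simp] lemma cst_some (t : ℝ) (j : Fin d) : cst d t (some j) = 0 := rfl
@[simp] lemma ev_cst (x : Fin d → ℝ) (t : ℝ) : ev x (cst d t) = t := by simp [ev_apply]

lemma cst_nsmul (m : ℕ) (t : ℝ) : m • cst d t = cst d (m * t) := by
  ext α; cases α <;> simp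

lemma cst_add (s t : ℝ) : cst d (s + t) = cst d s + cst d t := by
  ext α; cases α <;> simp

lemma cst_zero : cst d 0 = 0 := by
  ext α; cases α <;> simp

/-- coordinate function -/
def ee (j : Fin d) : VV d := Pi.single (some j) 1

@[simp] lemma ee_none (j : Fin d) : ee j none = 0 := by simp [ee]
lemma ee_some (j k : Fin d) : ee j (some k) = if k = j then 1 else 0 := by
  simp [ee, Pi.single_apply]

lemma ev_ee (x : Fin d → ℝ) (j : Fin d) : ev x (ee j) = x j := by
  simp [ev_apply, ee_some]

lemma decomp (u : VV d) : u = cst d (u none) + ∑ j, u (some j) • ee j := by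
  ext α
  cases α with
  | none => simp [Finset.sum_apply]
  | some k => simp [Finset.sum_apply, ee_some]

/-- bilinear weight -/
def wt2 (u v : VV d) : WW d := Matrix.of fun j k => u (some j) * v (some k)

/-- weight (Gram contribution) of an affine function -/
def wt (u : VV d) : WW d := wt2 u u

/-- squared norm of the linear part -/
def nsq (u : VV d) : ℝ := ∑ j, u (some j) ^ 2

lemma nsq_nonneg (u : VV d) : 0 ≤ nsq u := Finset.sum_nonneg fun _ _ => sq_nonneg _

lemma trace_wt (u : VV d) : (wt u).trace = nsq u := by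
  simp [wt, wt2, nsq, Matrix.trace, sq]

lemma wt_smul (s : ℝ) (u : VV d) : wt (s • u) = s ^ 2 • wt u := by
  ext j k; simp [wt, wt2]; ring

lemma nsq_smul (s : ℝ) (u : VV d) : nsq (s • u) = s ^ 2 * nsq u := by
  simp [nsq, Finset.mul_sum, mul_pow]

lemma wt_add_cst (u : VV d) (t : ℝ) : wt (u + cst d t) = wt u := by
  ext j k; simp [wt, wt2]

lemma nsq_add_cst (u : VV d) (t : ℝ) : nsq (u + cst d t) = nsq u := by
  simp [nsq]

lemma wt_cst (t : ℝ) : wt (cst d t) = 0 := by
  ext j k; simp [wt, wt2]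

lemma nsq_zero : nsq (0 : VV d) = 0 := by simp [nsq]

lemma wt_zero : wt (0 : VV d) = 0 := by
  ext j k; simp [wt, wt2]

lemma nsq_add_le (u v : VV d) : nsq (u + v) ≤ 2 * nsq u + 2 * nsq v := by
  simp only [nsq, Finset.mul_sum, ← Finset.sum_add_distrib]
  refine Finset.sum_le_sum fun j _ => ?_
  simp only [Pi.add_apply]
  nlinarith [sq_nonneg (u (some j) - v (some j))]

lemma sum_wt_ee : ∑ j : Fin d, wt (ee j) = 1 := by
  ext j k
  simp only [wt, wt2, Matrix.sum_apply, Matrix.of_apply, ee_some, Matrix.one_apply]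
  by_cases h : j = k
  · subst h; simp
  · simp [h]

lemma exists_sep {x y : Fin d → ℝ} (h : x ≠ y) : ∃ u : VV d, ev x u = 1 ∧ ev y u = 0 := by
  obtain ⟨k, hk⟩ := Function.ne_iff.mp h
  have hk' : x k - y k ≠ 0 := sub_ne_zero.mpr hk
  refine ⟨(x k - y k)⁻¹ • (ee k + cst d (-y k)), ?_, ?_⟩
  · rw [map_smul, map_add, ev_ee, ev_cst, smul_eq_mul]; field_simp; ring
  · rw [map_smul, map_add, ev_ee, ev_cst, smul_eq_mul]; ring

end

end Vale.Agent.P058
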