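import Vale.Agent.P058.GRing
import Vale.Agent.P058.Setup

/-! Costs of elements of the group ring of affine functions. -/

namespace Vale.Agent.P058

noncomputable section

variable {d : ℕ}

section kill
variable {G : Type*} [AddCommGroup G] {Q : Type*} [AddCommGroup Q] [Module ℚ Q]

lemma kill_span {κ : Type*} (f : κ → GR G) (L : GR G →ₗ[ℚ] Q)
    (h : ∀ v k, L (xg v * f k) = 0) {c : GR G} (hc : c ∈ Ideal.span (Set.range f)) :
    L c = 0 := by
  have : ∀ r, L (r * c) = 0 := by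
    induction hc using Submodule.span_induction with
    | mem x hx =>
      obtain ⟨k, rfl⟩ := hx
      intro r
      induction r using GR.ind with
      | h0 => simp
      | hadd a b ha hb => rw [add_mul, map_add, ha, hb, add_zero]
      | hs c g => rw [smul_mul_assoc, map_smul, h, smul_zero]
    | zero => simp
    | add a b _ _ ha hb => intro r; rw [mul_add, map_add, ha, hb, add_zero]
    | smul s a _ ha => intro r; rw [smul_eq_mul, ← mul_assoc, ha]
  simpa using this 1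

lemma kill_mul (I : Ideal (GR G)) (L : GR G →ₗ[ℚ] Q)
    (h : ∀ c ∈ I, ∀ g, L (c * io g) = 0) {x : GR G} (hx : x ∈ I * aug G) : L x = 0 := by
  refine Submodule.mul_induction_on hx ?_ ?_
  · intro a ha b hb
    have := kill_span (io (G := G)) (L.comp (LinearMap.mulLeft ℚ a)) (fun v k => by
      simp only [LinearMap.comp_apply, LinearMap.mulLeft_apply]
      rw [← mul_assoc]
      exact h _ (I.mul_mem_right _ ha) _) hb
    simpa using this
  · intro a b ha hb; rw [map_add, ha, hb, add_zero]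

lemma kill_aug3 (L : GR G →ₗ[ℚ] Q)
    (h : ∀ v g₁ g₂ g₃, L (xg v * io g₁ * io g₂ * io g₃) = 0) {x : GR G} (hx : x ∈ aug G ^ 3) :
    L x = 0 := by
  rw [pow_succ] at hx
  refine kill_mul _ L (fun c hc g₃ => ?_) hx
  rw [pow_two] at hc
  have := kill_mul (aug G) (L.comp (LinearMap.mulRight ℚ (io g₃))) (fun c hc g₂ => by
    have := kill_span (io (G := G))
      (L.comp ((LinearMap.mulRight ℚ (io g₃)).comp (LinearMap.mulRight ℚ (io g₂))))
      (fun v k => by simpa using h v k g₂ g₃) hc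
    simpa using this) hc
  simpa using this

end kill

/-- the weight functional -/
def wR : GR (VV d) →ₗ[ℚ] WW d := lext wt

lemma wR_xg (v : VV d) : wR (xg v) = wt v := lext_xg _ _

lemma wR_aug3 {x : GR (VV d)} (hx : x ∈ aug (VV d) ^ 3) : wR x = 0 := by
  refine kill_aug3 wR (fun v g₁ g₂ g₃ => ?_) hx
  have : xg v * io g₁ * io g₂ * io g₃ = xg (v + g₁ + g₂ + g₃) - xg (v + g₁ + g₂) - xg (v + g₁ + g₃)
      - xg (v + g₂ + g₃) + xg (v + g₁) + xg (v + g₂) + xg (v + g₃) - xg v := by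
    simp only [xg_add, io]; ring
  rw [this]
  simp only [map_add, map_sub, wR_xg]
  ext j k
  simp only [wt, wt2, Matrix.add_apply, Matrix.sub_apply, Matrix.of_apply, Pi.add_apply,
    Matrix.zero_apply]
  ring

lemma wR_io_mul (u v : VV d) : wR (io u * io v) = wt2 u v + wt2 v u := by
  have : io u * io v = xg (u + v) - xg u - xg v + xg 0 := by
    simp only [xg_add, io, xg_zero]; ring
  rw [this]
  simp only [map_add, map_sub, wR_xg]
  ext j k
  simp only [wt, wt2, Matrix.add_apply, Matrix.sub_apply, Matrix.of_apply, Pi.add_apply,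
    Pi.zero_apply]
  ring

lemma wR_dil (m : ℕ) (x : GR (VV d)) : wR (dil _ m x) = ((m : ℚ) ^ 2) • wR x := by
  induction x using GR.ind with
  | h0 => simp
  | hadd a b ha hb => simp [ha, hb]
  | hs c g =>
    rw [map_smul, map_smul, map_smul, dil_xg, wR_xg, wR_xg, smul_comm]
    congr 1
    rw [← Nat.cast_smul_eq_nsmul ℝ, wt_smul]
    ext j k; simp [Rat.smul_def]

/-- the ideal of translation differences -/
def TT (d : ℕ) : Ideal (GR (VV d)) := Ideal.span (Set.range fun t : ℝ => io (cst d t))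

lemma io_cst_mem (t : ℝ) : io (cst d t) ∈ TT d := Ideal.subset_span ⟨t, rfl⟩

lemma wR_TT {x : GR (VV d)} (hx : x ∈ TT d) : wR x = 0 := by
  refine kill_span _ wR (fun v t => ?_) hx
  rw [io, mul_sub, mul_one, ← xg_add, map_sub, wR_xg, wR_xg, wt_add_cst, sub_self]

/-- cost of a multiset -/
def cost (P : Multiset (VV d)) : ℝ := (P.map nsq).sum

lemma cost_nonneg (P : Multiset (VV d)) : 0 ≤ cost P :=
  Multiset.sum_nonneg (by simp only [Multiset.mem_map]; rintro _ ⟨v, _, rfl⟩; exact nsq_nonneg v)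

lemma cost_add (P Q : Multiset (VV d)) : cost (P + Q) = cost P + cost Q := by simp [cost]

lemma cost_nsmul (n : ℕ) (P : Multiset (VV d)) : cost (n • P) = n * cost P := by
  induction n with
  | zero => simp [cost]
  | succ n ih => rw [succ_nsmul, cost_add, ih]; push_cast; ring

lemma cost_map_le (f : VV d → VV d) (c : ℝ) (hf : ∀ v, nsq (f v) ≤ c * nsq v)
    (P : Multiset (VV d)) : cost (P.map f) ≤ c * cost P := by
  induction P using Multiset.induction_on with
  | empty => simp [cost]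
  | cons a s ih =>
    simp only [cost, Multiset.map_cons, Multiset.sum_cons] at ih ⊢
    nlinarith [hf a]

/-- `Cst θ ρ t`: a multiple of `ρ` is a difference of multisets, with controlled cost. -/
def Cst (θ : ℝ) (ρ : GR (VV d)) (t : ℝ) : Prop :=
  ∃ (m : ℕ) (P N : Multiset (VV d)), 0 < m ∧ (m : ℚ) • ρ = toR P - toR N ∧
    θ * cost P + cost N ≤ m * t

namespace Cst

variable {θ t s : ℝ} {ρ σ : GR (VV d)}

lemma mono (h : Cst θ ρ t) (hts : t ≤ s) : Cst θ ρ s := by
  obtain ⟨m, P, N, hm, h1, h2⟩ := h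
  exact ⟨m, P, N, hm, h1, h2.trans (mul_le_mul_of_nonneg_left hts (Nat.cast_nonneg _))⟩

lemma add (h : Cst θ ρ t) (h' : Cst θ σ s) : Cst θ (ρ + σ) (t + s) := by
  obtain ⟨m, P, N, hm, h1, h2⟩ := h
  obtain ⟨m', P', N', hm', h1', h2'⟩ := h'
  refine ⟨m * m', m' • P + m • P', m' • N + m • N', Nat.mul_pos hm hm', ?_, ?_⟩
  · rw [toR_add, toR_add, toR_nsmul, toR_nsmul, toR_nsmul, toR_nsmul]
    have : ((m * m' : ℕ) : ℚ) • (ρ + σ) = (m' : ℚ) • ((m : ℚ) • ρ) + (m : ℚ) • ((m' : ℚ) • σ) := by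
      push_cast; module
    rw [this, h1, h1']; module
  · rw [cost_add, cost_add, cost_nsmul, cost_nsmul, cost_nsmul, cost_nsmul]
    have e1 := mul_le_mul_of_nonneg_left h2 (Nat.cast_nonneg (α := ℝ) m')
    have e2 := mul_le_mul_of_nonneg_left h2' (Nat.cast_nonneg (α := ℝ) m)
    push_cast
    nlinarith

lemma zero : Cst θ (0 : GR (VV d)) 0 :=
  ⟨1, 0, 0, one_pos, by simp, by simp [cost]⟩

lemma sum {κ : Type*} (S : Finset κ) (f : κ → GR (VV d)) (g : κ → ℝ)
    (h : ∀ k ∈ S, Cst θ (f k) (g k)) : Cst θ (∑ k ∈ S, f k) (∑ k ∈ S, g k) := by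
  classical
  induction S using Finset.induction_on with
  | empty => simpa using zero
  | insert k S hk ih =>
    rw [Finset.sum_insert hk, Finset.sum_insert hk]
    exact (h k (Finset.mem_insert_self _ _)).add
      (ih fun k' hk' => h k' (Finset.mem_insert_of_mem hk'))

lemma of_one (h : Cst 1 ρ t) : Cst 0 ρ t := by
  obtain ⟨m, P, N, hm, h1, h2⟩ := h
  exact ⟨m, P, N, hm, h1, by nlinarith [cost_nonneg P]⟩

lemma neg (h : Cst 1 ρ t) : Cst 1 (-ρ) t := by
  obtain ⟨m, P, N, hm, h1, h2⟩ := h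
  exact ⟨m, N, P, hm, by rw [smul_neg, h1]; abel, by linarith⟩

lemma sub (h : Cst 1 ρ t) (h' : Cst 1 σ s) : Cst 1 (ρ - σ) (t + s) := by
  rw [sub_eq_add_neg]; exact h.add h'.neg

lemma smul_nonneg (h : Cst θ ρ t) {q : ℚ} (hq : 0 ≤ q) : Cst θ (q • ρ) (q * t) := by
  obtain ⟨m, P, N, hm, h1, h2⟩ := h
  obtain ⟨n, hn⟩ : ∃ n : ℕ, q.num = n := ⟨q.num.toNat, (Int.toNat_of_nonneg (Rat.num_nonneg.mpr hq)).symm⟩
  have hq' : (q.den : ℚ) * q = n := by
    have := Rat.den_mul_eq_num q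
    rw [this, hn]; simp
  have hq'' : (q.den : ℝ) * q = n := by exact_mod_cast hq'
  refine ⟨m * q.den, n • P, n • N, Nat.mul_pos hm q.pos, ?_, ?_⟩
  · rw [toR_nsmul, toR_nsmul, ← smul_sub, ← h1, smul_smul, smul_smul]
    congr 1
    push_cast; rw [← hq']; ring
  · rw [cost_nsmul, cost_nsmul]
    have e1 := mul_le_mul_of_nonneg_left h2 (Nat.cast_nonneg (α := ℝ) n)
    push_cast
    have : (m : ℝ) * q.den * (q * t) = n * (m * t) := by rw [← hq'']; ring
    rw [this]; nlinarith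

lemma smul (h : Cst 1 ρ t) (q : ℚ) : Cst 1 (q • ρ) (|(q : ℝ)| * t) := by
  rcases le_total 0 q with hq | hq
  · rw [abs_of_nonneg (by exact_mod_cast hq)]; exact h.smul_nonneg hq
  · have := (h.smul_nonneg (q := -q) (by linarith)).neg
    rw [abs_of_nonpos (by exact_mod_cast hq)]
    simpa using this

lemma xg (v : VV d) : Cst θ (xg v) (θ * nsq v) :=
  ⟨1, {v}, 0, one_pos, by simp [toR], by simp [cost]⟩

lemma map (h : Cst θ ρ t) (hθ : 0 ≤ θ) (L : GR (VV d) →ₗ[ℚ] GR (VV d)) (f : VV d → VV d)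
    (hL : ∀ v, L (Vale.Agent.P058.xg v) = Vale.Agent.P058.xg (f v)) (c : ℝ) (hc : 0 ≤ c)
    (hf : ∀ v, nsq (f v) ≤ c * nsq v) : Cst θ (L ρ) (c * t) := by
  obtain ⟨m, P, N, hm, h1, h2⟩ := h
  have key : ∀ P : Multiset (VV d), L (toR P) = toR (P.map f) := by
    intro P
    rw [lin_toR, toR, Multiset.map_map]
    congr 2
    ext1 v; exact hL v
  refine ⟨m, P.map f, N.map f, hm, by rw [← map_smul, h1, map_sub, key, key], ?_⟩
  have e1 := cost_map_le f c hf P
  have e2 := cost_map_le f c hf N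
  have e3 := mul_le_mul_of_nonneg_left h2 hc
  have e4 := mul_le_mul_of_nonneg_left e1 hθ
  nlinarith

lemma nonneg (h : Cst 1 ρ t) : 0 ≤ t := by
  obtain ⟨m, P, N, hm, -, h2⟩ := h
  have : (0 : ℝ) < m := by exact_mod_cast hm
  have h3 : 0 ≤ (m : ℝ) * t := by nlinarith [cost_nonneg P, cost_nonneg N]
  exact nonneg_of_mul_nonneg_right h3 this |> fun h => by
    by_contra hc
    push Not at hc
    nlinarith

lemma exists_one (ρ : GR (VV d)) : ∃ t, Cst 1 ρ t := by
  induction ρ using GR.ind with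
  | h0 => exact ⟨0, zero⟩
  | hadd a b ha hb =>
    obtain ⟨s, hs⟩ := ha
    obtain ⟨t, ht⟩ := hb
    exact ⟨_, hs.add ht⟩
  | hs c g => exact ⟨_, (xg g).smul c⟩

lemma dil (h : Cst 1 ρ t) (m : ℕ) : Cst 1 (Vale.Agent.P058.dil _ m ρ) ((m : ℝ) ^ 2 * t) :=
  h.map zero_le_one (Vale.Agent.P058.dil _ m).toLinearMap (fun v => m • v) (fun v => dil_xg m v) _
    (by positivity) (fun v => by rw [← Nat.cast_smul_eq_nsmul ℝ, nsq_smul])

end Cst

/-- averaging operators -/
structure Good (A : GR (VV d)) : Prop where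
  w : ∀ ρ, wR (A * ρ) = wR ρ
  c : ∀ θ ρ t, 0 ≤ θ → Cst θ ρ t → Cst θ (A * ρ) t

lemma Good.mul {A B : GR (VV d)} (hA : Good A) (hB : Good B) : Good (A * B) :=
  ⟨fun ρ => by rw [mul_assoc, hA.w, hB.w], fun θ ρ t hθ h => by
    rw [mul_assoc]; exact hA.c _ _ _ hθ (hB.c _ _ _ hθ h)⟩

lemma Good.xg_cst (t : ℝ) : Good (xg (cst d t)) := by
  refine ⟨fun ρ => ?_, fun θ ρ s hθ h => ?_⟩
  · have : wR (ρ * io (cst d t)) = 0 := wR_TT (Ideal.mul_mem_left _ _ (io_cst_mem t))
    rw [io, mul_sub, mul_one, map_sub, mul_comm] at this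
    exact sub_eq_zero.mp this
  · have := h.map hθ (LinearMap.mulLeft ℚ (xg (cst d t))) (fun v => v + cst d t)
      (fun v => by simp [xg_add, mul_comm]) 1 zero_le_one (fun v => by rw [nsq_add_cst, one_mul])
    simpa using this

lemma Good.avg (M : ℕ) (hM : 0 < M) (f : ℕ → GR (VV d)) (hf : ∀ k, Good (f k)) :
    Good (((M : ℚ)⁻¹) • ∑ k ∈ Finset.range M, f k) := by
  have hM' : (M : ℚ) ≠ 0 := by positivity
  have hM'' : (M : ℝ) ≠ 0 := by positivity
  refine ⟨fun ρ => ?_, fun θ ρ s hθ h => ?_⟩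
  · rw [smul_mul_assoc, Finset.sum_mul, map_smul, map_sum]
    simp only [(hf _).w, Finset.sum_const, Finset.card_range]
    rw [← Nat.cast_smul_eq_nsmul ℚ, smul_smul, inv_mul_cancel₀ hM', one_smul]
  · rw [smul_mul_assoc, Finset.sum_mul]
    have := (Cst.sum (Finset.range M) (fun k => f k * ρ) (fun _ => s)
      (fun k _ => (hf k).c _ _ _ hθ h)).smul_nonneg (q := (M : ℚ)⁻¹) (by positivity)
    convert this using 1
    simp only [Finset.sum_const, Finset.card_range, nsmul_eq_mul]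
    push_cast; field_simp

lemma telesc (t : ℝ) (M : ℕ) :
    (∑ k ∈ Finset.range M, xg (cst d (k * t))) * io (cst d t) = xg (cst d (M * t)) - 1 := by
  induction M with
  | zero => simp [cst_zero, xg_zero]
  | succ M ih =>
    rw [Finset.sum_range_succ, add_mul, ih]
    push_cast
    rw [add_mul, one_mul, cst_add, xg_add, io]; ring

lemma folner {θ : GR (VV d)} (hθ : θ ∈ TT d) :
    ∀ (r : GR (VV d)) (ε : ℝ), 0 < ε → ∃ A, Good A ∧ Cst 1 (A * (r * θ)) ε := by
  induction hθ using Submodule.span_induction with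
  | mem x hx =>
    obtain ⟨t, rfl⟩ := hx
    intro r ε hε
    obtain ⟨s, hs⟩ := Cst.exists_one r
    obtain ⟨M, hM⟩ := exists_nat_gt (2 * s / ε)
    have hs0 := hs.nonneg
    have hM0 : (0 : ℝ) < M := lt_of_le_of_lt (by positivity) hM
    have hM1 : 0 < M := by exact_mod_cast hM0
    refine ⟨_, Good.avg M hM1 (fun k => xg (cst d (k * t))) (fun k => Good.xg_cst _), ?_⟩
    have e := telesc (d := d) t M
    have e2 : (((M : ℚ)⁻¹) • ∑ k ∈ Finset.range M, xg (cst d (k * t))) * (r * io (cst d t))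
        = ((M : ℚ)⁻¹) • (xg (cst d (M * t)) * r - r) := by
      rw [smul_mul_assoc]; congr 1
      rw [mul_comm r, ← mul_assoc, e]; ring
    rw [e2]
    have := (((Good.xg_cst (M * t)).c 1 r s zero_le_one hs).sub hs).smul_nonneg
      (q := (M : ℚ)⁻¹) (by positivity)
    refine this.mono ?_
    push_cast
    rw [div_lt_iff₀ hε] at hM
    rw [inv_mul_le_iff₀ hM0]; linarith
  | zero => intro r ε hε; exact ⟨xg (cst d 0), Good.xg_cst 0, by simpa using Cst.zero.mono hε.le⟩
  | add a b _ _ ha hb =>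
    intro r ε hε
    obtain ⟨A, hA, h1⟩ := ha r (ε / 2) (by positivity)
    obtain ⟨B, hB, h2⟩ := hb r (ε / 2) (by positivity)
    refine ⟨A * B, hA.mul hB, ?_⟩
    have := (hB.c _ _ _ zero_le_one h1).add (hA.c _ _ _ zero_le_one h2)
    convert this using 1
    · ring
    · ring
  | smul s a _ ha =>
    intro r ε hε
    obtain ⟨A, hA, h1⟩ := ha (r * s) ε hε
    exact ⟨A, hA, by rwa [smul_eq_mul, ← mul_assoc r]⟩

end

end Vale.Agent.P058
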