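import Mathlib

namespace Vale.Agent.P058

open scoped TensorProduct

/-- Euclidean `d`-space. -/
abbrev Euc (d : ℕ) := EuclideanSpace ℝ (Fin d)

/-- `B` is congruent to `A`: it is the image of `A` under a map preserving all pairwise distances
of points of `A`. -/
def IsCopy {d D : ℕ} (A : Finset (Euc d)) (B : Set (Euc D)) : Prop :=
  ∃ f : Euc d → Euc D, (∀ x ∈ A, ∀ y ∈ A, dist (f x) (f y) = dist x y) ∧ B = f '' (A : Set (Euc d))

/-- `A` is Ramsey: for every number of colours `r ≥ 2` there is a dimension `D ≥ 1` such that every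
`r`-colouring of `ℝ^D` is constant on some congruent copy of `A`. -/
def IsRamsey {d : ℕ} (A : Finset (Euc d)) : Prop :=
  ∀ r : ℕ, 2 ≤ r → ∃ D : ℕ, 1 ≤ D ∧ ∀ c : Euc D → Fin r,
    ∃ B : Set (Euc D), IsCopy A B ∧ ∃ k : Fin r, ∀ y ∈ B, c y = k

/-- `A` is spherical: some congruent copy lies on a sphere. -/
def IsSpherical {d : ℕ} (A : Finset (Euc d)) : Prop :=
  ∃ (D : ℕ) (B : Set (Euc D)), IsCopy A B ∧ ∃ (z : Euc D) (ρ : ℝ), ∀ y ∈ B, dist y z = ρ

/-- The isometries of `ℝ^n` mapping `X` onto itself act transitively on `X`. -/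
def IsTransitive {n : ℕ} (X : Finset (Euc n)) : Prop :=
  ∀ x ∈ X, ∀ y ∈ X, ∃ g : Euc n ≃ᵢ Euc n, g '' (X : Set (Euc n)) = X ∧ g x = y

/-- `A` is congruent to a subset of a finite transitive set. -/
def IsSubtransitive {d : ℕ} (A : Finset (Euc d)) : Prop :=
  ∃ (n : ℕ) (X : Finset (Euc n)), IsTransitive X ∧ ∃ B : Set (Euc n), B ⊆ X ∧ IsCopy A B

/-- The tensor condition for vectors `p i ∈ K^{1+d}` over a field `K` of characteristic zero:
there is a `(1+d) × (1+d)` matrix `P` over the ring `K ⊗_ℚ K` with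
`(p i ⊗ 1)ᵀ P (1 ⊗ p i) = 0` for all `i`, whose spatial `d × d` block is sent to the identity
matrix by the multiplication map `K ⊗_ℚ K → K`. -/
def TensorSolvable {d : ℕ} {ι : Type} (K : Type) [Field K] [Algebra ℚ K]
    (p : ι → Option (Fin d) → K) : Prop :=
  ∃ P : Matrix (Option (Fin d)) (Option (Fin d)) (K ⊗[ℚ] K),
    (∀ i, ∑ α, ∑ β, (p i α ⊗ₜ[ℚ] (1 : K)) * P α β * ((1 : K) ⊗ₜ[ℚ] p i β) = 0) ∧
    ∀ j k : Fin d, Algebra.TensorProduct.lmul' ℚ (P (some j) (some k)) = if j = k then 1 else 0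

/-- The subfield of `ℝ` generated by all coordinates of all points of `A`. -/
noncomputable def coordField {d : ℕ} (A : Finset (Euc d)) : IntermediateField ℚ ℝ :=
  IntermediateField.adjoin ℚ {t : ℝ | ∃ x ∈ A, ∃ j, x j = t}

/-- Homogeneous coordinates `(1, x)` of a point `x ∈ A`, in the coordinate field. -/
noncomputable def homog {d : ℕ} (A : Finset (Euc d)) (x : A) : Option (Fin d) → coordField A
  | none => 1
  | some j => ⟨x.1 j, IntermediateField.subset_adjoin ℚ _ ⟨x.1, x.2, j, rfl⟩⟩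

/-- The tensor criterion for `A` over its coordinate field. -/
def TensorCriterion {d : ℕ} (A : Finset (Euc d)) : Prop :=
  TensorSolvable (coordField A) (homog A)

end Vale.Agent.P058
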