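import Vale.Agent.P058.Nec

/-! The tensor criterion over a subfield is equivalent to the one over the reals. -/

namespace Vale.Agent.P058

open scoped TensorProduct

noncomputable section

set_option linter.unusedSectionVars false

variable {d : ℕ} {ι : Type} [Fintype ι] [DecidableEq ι]
variable {K : Type} [Field K] [Algebra ℚ K] [Algebra K ℝ] [IsScalarTower ℚ K ℝ]

lemma ev_eq_sum (x : Fin d → ℝ) (u : VV d) : ev x u = ∑ α, u α * α.elim 1 x := by
  rw [Fintype.sum_option, ev_apply]; simp

lemma critR_of_solvable {a : ι → Fin d → ℝ} {p : ι → Option (Fin d) → K}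
    (hp : ∀ i α, algebraMap K ℝ (p i α) = α.elim 1 (a i)) (h : TensorSolvable K p) : CritR a := by
  obtain ⟨P, h1, h2⟩ := h
  let val := IsScalarTower.toAlgHom ℚ K ℝ
  let ε : Option (Fin d) → K →ₗ[ℚ] VV d := fun α =>
    (LinearMap.single ℚ (fun _ => ℝ) α).comp val.toLinearMap
  have hε : ∀ α s, ε α s = Pi.single α (algebraMap K ℝ s) := fun _ _ => rfl
  have hev : ∀ i α s, evQ (a i) (ε α s) = algebraMap K ℝ (p i α * s) := fun i α s => by
    change ev (a i) _ = _
    rw [ev_eq_sum, hε, Finset.sum_eq_single α, map_mul, hp, mul_comm]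
    · simp
    · intro β _ hβ; simp [hβ]
    · simp
  refine ⟨∑ α, ∑ β, TensorProduct.map (ε α) (ε β) (P α β), fun i => ?_, ?_⟩
  · have key : ∀ α β z, TensorProduct.map (evQ (a i)) (evQ (a i)) (TensorProduct.map (ε α) (ε β) z)
        = Algebra.TensorProduct.map val val ((p i α ⊗ₜ[ℚ] (1 : K)) * z * ((1 : K) ⊗ₜ[ℚ] p i β)) := by
      intro α β z
      induction z using TensorProduct.induction_on with
      | zero => simp
      | tmul s t =>
        simp only [TensorProduct.map_tmul, hev, Algebra.TensorProduct.tmul_mul_tmul, mul_one,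
          one_mul, Algebra.TensorProduct.map_tmul, mul_comm t]
        rfl
      | add x y hx hy => simp only [map_add, hx, hy, mul_add, add_mul]
    simp only [map_sum, key]
    simp only [← map_sum, h1, map_zero]
  · have key : ∀ α β z j k, wtT (TensorProduct.map (ε α) (ε β) z) j k =
        if α = some j ∧ β = some k then algebraMap K ℝ (Algebra.TensorProduct.lmul' ℚ z) else 0 := by
      intro α β z j k
      induction z using TensorProduct.induction_on with
      | zero => simp
      | tmul s t =>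
        simp only [TensorProduct.map_tmul, wtT_tmul, wt2, Matrix.of_apply, hε, Pi.single_apply,
          Algebra.TensorProduct.lmul'_apply_tmul, map_mul]
        by_cases h1 : α = some j <;> by_cases h2 : β = some k <;> simp [h1, h2, eq_comm]
      | add x y hx hy =>
        simp only [map_add, Matrix.add_apply, hx, hy]
        split_ifs <;> simp
    ext j k
    simp only [map_sum, Matrix.sum_apply, key]
    rw [Finset.sum_eq_single (some j), Finset.sum_eq_single (some k)]
    · simp [h2, Matrix.one_apply]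
    · intro β _ hβ; simp [hβ]
    · simp
    · intro α _ hα; simp [hα]
    · simp

lemma exists_descent : ∃ Ψ : ℝ ⊗[ℚ] ℝ →+ K ⊗[ℚ] K,
    (∀ (s t : K) z, Ψ ((algebraMap K ℝ s ⊗ₜ[ℚ] (1 : ℝ)) * z * ((1 : ℝ) ⊗ₜ[ℚ] algebraMap K ℝ t)) =
      (s ⊗ₜ[ℚ] (1 : K)) * Ψ z * ((1 : K) ⊗ₜ[ℚ] t)) ∧
    ∀ (s : K) z, Algebra.TensorProduct.lmul' ℚ z = algebraMap K ℝ s →
      Algebra.TensorProduct.lmul' ℚ (Ψ z) = s := by
  classical
  obtain ⟨π, hπ⟩ := (Algebra.linearMap K ℝ).exists_leftInverse_of_injective
    (LinearMap.ker_eq_bot.mpr (algebraMap K ℝ).injective)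
  have hπ' : ∀ s : K, π (algebraMap K ℝ s) = s := fun s => LinearMap.congr_fun hπ s
  let b := Module.Basis.ofVectorSpace K ℝ
  let B : ℝ →+ ℝ →+ K ⊗[ℚ] K := AddMonoidHom.mk' (fun s => AddMonoidHom.mk'
    (fun t => (b.repr t).sum fun l c => π (s * b l) ⊗ₜ[ℚ] c) (fun t t' => by
      rw [map_add, Finsupp.sum_add_index']
      · simp
      · intro l c c'; rw [TensorProduct.tmul_add])) (fun s s' => by
      ext t
      simp only [AddMonoidHom.mk'_apply, AddMonoidHom.add_apply, add_mul, map_add,
        TensorProduct.add_tmul, Finsupp.sum_add])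
  have hB : ∀ s t, B s t = (b.repr t).sum fun l c => π (s * b l) ⊗ₜ[ℚ] c := fun _ _ => rfl
  let Ψ : ℝ ⊗[ℚ] ℝ →+ K ⊗[ℚ] K := TensorProduct.liftAddHom B (fun r s t => by
    rw [map_rat_smul B, map_rat_smul (B s)]; rfl)
  have hΨ : ∀ s t, Ψ (s ⊗ₜ[ℚ] t) = B s t := fun _ _ => rfl
  have h2 : ∀ z, Algebra.TensorProduct.lmul' ℚ (Ψ z) = π (Algebra.TensorProduct.lmul' ℚ z) := by
    intro z
    induction z using TensorProduct.induction_on with
    | zero => simp
    | tmul s t =>
      rw [hΨ, hB, Finsupp.sum, map_sum, Algebra.TensorProduct.lmul'_apply_tmul]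
      simp only [Algebra.TensorProduct.lmul'_apply_tmul]
      conv_rhs => rw [← b.linearCombination_repr t, Finsupp.linearCombination_apply, Finsupp.sum,
        Finset.mul_sum, map_sum]
      refine Finset.sum_congr rfl fun l _ => ?_
      rw [mul_smul_comm, map_smul, smul_eq_mul, mul_comm]
    | add x y hx hy => simp only [map_add, hx, hy]
  refine ⟨Ψ, fun s t z => ?_, fun s z h => by rw [h2, h, hπ']⟩
  induction z using TensorProduct.induction_on with
  | zero => simp
  | tmul x y =>
    rw [Algebra.TensorProduct.tmul_mul_tmul, Algebra.TensorProduct.tmul_mul_tmul, hΨ, hΨ, hB, hB,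
      mul_one, one_mul, mul_comm y, ← Algebra.smul_def t, map_smul, Finsupp.sum_smul_index',
      Finsupp.sum, Finsupp.sum, Finset.mul_sum, Finset.sum_mul]
    · refine Finset.sum_congr rfl fun l _ => ?_
      rw [Algebra.TensorProduct.tmul_mul_tmul, Algebra.TensorProduct.tmul_mul_tmul, mul_assoc,
        ← Algebra.smul_def s, map_smul, smul_eq_mul, smul_eq_mul, mul_one, one_mul, mul_comm t]
    · simp
  | add x y hx hy => simp only [map_add, hx, hy, mul_add, add_mul]

lemma solvable_of_critR {a : ι → Fin d → ℝ} {p : ι → Option (Fin d) → K}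
    (hp : ∀ i α, algebraMap K ℝ (p i α) = α.elim 1 (a i)) (h : CritR a) : TensorSolvable K p := by
  obtain ⟨Θ, h1, h2⟩ := h
  obtain ⟨Ψ, hΨ1, hΨ2⟩ := exists_descent (K := K)
  let pr : Option (Fin d) → VV d →ₗ[ℚ] ℝ := fun α => LinearMap.proj α
  have k1 : ∀ (x : Fin d → ℝ) (Θ : VV d ⊗[ℚ] VV d), ∑ α : Option (Fin d), ∑ β : Option (Fin d),
      ((α.elim 1 x : ℝ) ⊗ₜ[ℚ] (1 : ℝ)) * TensorProduct.map (pr α) (pr β) Θ *
        ((1 : ℝ) ⊗ₜ[ℚ] (β.elim 1 x : ℝ)) = TensorProduct.map (evQ x) (evQ x) Θ := by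
    intro x Θ
    induction Θ using TensorProduct.induction_on with
    | zero => simp
    | tmul u v =>
      simp only [TensorProduct.map_tmul, Algebra.TensorProduct.tmul_mul_tmul, mul_one, one_mul]
      change _ = ev x u ⊗ₜ[ℚ] ev x v
      rw [ev_eq_sum, ev_eq_sum, TensorProduct.sum_tmul]
      refine Finset.sum_congr rfl fun α _ => ?_
      rw [TensorProduct.tmul_sum]
      refine Finset.sum_congr rfl fun β _ => ?_
      rw [mul_comm]; rfl
    | add x y hx hy =>
      simp only [map_add, mul_add, add_mul, Finset.sum_add_distrib, hx, hy]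
  have k2 : ∀ (Θ : VV d ⊗[ℚ] VV d) j k, Algebra.TensorProduct.lmul' ℚ
      (TensorProduct.map (pr (some j)) (pr (some k)) Θ) = wtT Θ j k := by
    intro Θ j k
    induction Θ using TensorProduct.induction_on with
    | zero => simp
    | tmul u v => rfl
    | add x y hx hy => simp only [map_add, Matrix.add_apply, hx, hy]
  refine ⟨Matrix.of fun α β => Ψ (TensorProduct.map (pr α) (pr β) Θ), fun i => ?_, fun j k => ?_⟩
  · simp only [Matrix.of_apply, ← hΨ1, ← map_sum, hp, k1, h1, map_zero]
  · apply hΨ2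
    rw [k2, h2, Matrix.one_apply]
    split_ifs <;> simp

theorem criterion_iff_critR (A : Finset (Euc d)) : TensorCriterion A ↔ CritR (pts A) := by
  classical
  have hp : ∀ (i : A) α, algebraMap (coordField A) ℝ (homog A i α) = α.elim 1 (pts A i) := by
    intro i α
    cases α with
    | none => simp [homog]
    | some j => rfl
  exact ⟨critR_of_solvable hp, solvable_of_critR hp⟩

theorem ramsey_iff_criterion (A : Finset (Euc d)) (hA : A.Nonempty) :
    IsRamsey A ↔ TensorCriterion A := by
  rw [criterion_iff_critR]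
  exact ⟨critR_of_ramsey A hA, ramsey_of_critR A⟩

end

end Vale.Agent.P058
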