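import Mathlib

/-! Rational group rings: augmentation ideal and the dilation trick. -/

namespace Vale.Agent.P058

open AddMonoidAlgebra

noncomputable section

/-- rational group ring -/
abbrev GR (G : Type*) [AddCommGroup G] := AddMonoidAlgebra ℚ G

variable {G H : Type*} [AddCommGroup G] [AddCommGroup H]

/-- basis element -/
def xg (g : G) : GR G := single g 1

lemma xg_add (g h : G) : xg (g + h) = xg g * xg h := by
  simp [xg, single_mul_single]

lemma xg_zero : xg (0 : G) = 1 := rfl

/-- `x_g - 1` -/
def io (g : G) : GR G := xg g - 1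

lemma io_add (g h : G) : io (g + h) = io g + io h + io g * io h := by
  simp only [io, xg_add]; ring

lemma io_zero : io (0 : G) = 0 := by simp [io, xg_zero]

/-- augmentation ideal -/
def aug (G : Type*) [AddCommGroup G] : Ideal (GR G) := Ideal.span (Set.range (io (G := G)))

lemma io_mem (g : G) : io g ∈ aug G := Ideal.subset_span ⟨g, rfl⟩

/-- push forward along an additive map -/
def push (f : G →+ H) : GR G →ₐ[ℚ] GR H := mapDomainAlgHom ℚ ℚ f

lemma push_xg (f : G →+ H) (g : G) : push f (xg g) = xg (f g) := by
  simp [push, xg]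

lemma push_io (f : G →+ H) (g : G) : push f (io g) = io (f g) := by
  simp [io, push_xg]

lemma single_eq_smul (g : G) (c : ℚ) : (single g c : GR G) = c • xg g := by
  simp [xg]

lemma GR.ind {p : GR G → Prop} (x : GR G) (h0 : p 0) (hadd : ∀ a b, p a → p b → p (a + b))
    (hs : ∀ (c : ℚ) (g : G), p (c • xg g)) : p x := by
  induction x using AddMonoidAlgebra.induction_linear with
  | zero => exact h0
  | add a b ha hb => exact hadd a b ha hb
  | single g c => rw [single_eq_smul]; exact hs c g

lemma lin_ext {Q : Type*} [AddCommGroup Q] [Module ℚ Q] {f g : GR G →ₗ[ℚ] Q}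
    (h : ∀ v, f (xg v) = g (xg v)) : f = g := by
  apply LinearMap.ext
  intro x
  induction x using GR.ind with
  | h0 => simp
  | hadd a b ha hb => simp [ha, hb]
  | hs c g => simp [h]

/-- linear extension of a function on the group -/
def lext {Q : Type*} [AddCommGroup Q] [Module ℚ Q] (f : G → Q) : GR G →ₗ[ℚ] Q :=
  (Finsupp.linearCombination ℚ f).comp (AddMonoidAlgebra.coeffLinearEquiv ℚ).toLinearMap

lemma lext_xg {Q : Type*} [AddCommGroup Q] [Module ℚ Q] (f : G → Q) (g : G) :
    lext f (xg g) = f g := by
  simp [lext, xg]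

lemma smul_mem_ideal (I : Ideal (GR G)) (c : ℚ) {x : GR G} (hx : x ∈ I) : c • x ∈ I := by
  rw [Algebra.smul_def]; exact I.mul_mem_left _ hx

lemma push_surj (f : G →+ H) (hf : Function.Surjective f) : Function.Surjective (push f) := by
  intro y
  induction y using GR.ind with
  | h0 => exact ⟨0, map_zero _⟩
  | hadd a b ha hb =>
    obtain ⟨a', rfl⟩ := ha
    obtain ⟨b', rfl⟩ := hb
    exact ⟨a' + b', map_add _ _ _⟩
  | hs c g =>
    obtain ⟨g', rfl⟩ := hf g
    exact ⟨c • xg g', by rw [map_smul, push_xg]⟩

lemma map_aug_le (f : G →+ H) : (aug G).map (push f) ≤ aug H := by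
  rw [aug, Ideal.map_span, Ideal.span_le]
  rintro _ ⟨_, ⟨g, rfl⟩, rfl⟩
  rw [push_io]; exact io_mem _

lemma push_mem_aug_pow (f : G →+ H) (k : ℕ) {x : GR G} (hx : x ∈ aug G ^ k) :
    push f x ∈ aug H ^ k := by
  have : (aug G ^ k).map (push f) ≤ aug H ^ k := by
    rw [Ideal.map_pow]; exact Ideal.pow_right_mono (map_aug_le f) k
  exact this (Ideal.mem_map_of_mem _ hx)

/-- dilation -/
def dil (G : Type*) [AddCommGroup G] (m : ℕ) : GR G →ₐ[ℚ] GR G := push (nsmulAddMonoidHom m)

lemma dil_xg (m : ℕ) (g : G) : dil G m (xg g) = xg (m • g) := by simp [dil, push_xg]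

lemma push_dil (f : G →+ H) (m : ℕ) (x : GR G) : push f (dil G m x) = dil H m (push f x) := by
  induction x using GR.ind with
  | h0 => simp
  | hadd a b ha hb => simp [ha, hb]
  | hs c g => simp [dil_xg, push_xg]

lemma dil_mem_aug (m : ℕ) {x : GR G} (hx : x ∈ aug G) : dil G m x ∈ aug G :=
  map_aug_le _ (Ideal.mem_map_of_mem _ hx)

lemma dil_sub_mem (m : ℕ) (x : GR G) : dil G m x - x ∈ aug G := by
  induction x using GR.ind with
  | h0 => simp
  | hadd a b ha hb =>
    have := add_mem ha hb
    convert this using 1
    rw [map_add]; ring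
  | hs c g =>
    rw [map_smul, dil_xg, ← smul_sub]
    apply smul_mem_ideal
    have : xg (m • g) - xg g = io (m • g) - io g := by simp [io]
    rw [this]; exact sub_mem (io_mem _) (io_mem _)

lemma io_nsmul (m : ℕ) (g : G) : io (m • g) - (m : GR G) * io g ∈ aug G ^ 2 := by
  induction m with
  | zero => simp [io_zero]
  | succ m ih =>
    have h2 : io (m • g) * io g ∈ aug G ^ 2 := by
      rw [pow_two]; exact Ideal.mul_mem_mul (io_mem _) (io_mem _)
    have := add_mem ih h2
    convert this using 1
    rw [succ_nsmul, io_add]; push_cast; ring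

lemma dil_aug (m : ℕ) {x : GR G} (hx : x ∈ aug G) : dil G m x - (m : GR G) * x ∈ aug G ^ 2 := by
  induction hx using Submodule.span_induction with
  | mem x hx =>
    obtain ⟨g, rfl⟩ := hx
    have : dil G m (io g) = io (m • g) := by simp [dil, push_io]
    rw [this]; exact io_nsmul m g
  | zero => simp
  | add a b _ _ ha hb =>
    have := add_mem ha hb
    convert this using 1
    rw [map_add]; ring
  | smul r a ha0 ha =>
    have h1 : (dil G m r - r) * dil G m a ∈ aug G ^ 2 := by
      rw [pow_two]
      exact Ideal.mul_mem_mul (dil_sub_mem m r) (dil_mem_aug m ha0)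
    have h2 := Ideal.mul_mem_left _ r ha
    have := add_mem h1 h2
    convert this using 1
    rw [smul_eq_mul, map_mul]; ring

lemma dil_aug_pow (m k : ℕ) {x : GR G} (hx : x ∈ aug G ^ k) :
    dil G m x - (m : GR G) ^ k * x ∈ aug G ^ (k + 1) := by
  induction k generalizing x with
  | zero => simpa using dil_sub_mem m x
  | succ k ih =>
    rw [pow_succ] at hx
    refine Submodule.mul_induction_on hx ?_ ?_
    · intro a ha b hb
      have hb' : dil G m b ∈ aug G := dil_mem_aug m hb
      have h1 : (dil G m a - (m : GR G) ^ k * a) * dil G m b ∈ aug G ^ (k + 1 + 1) := by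
        rw [pow_succ (aug G) (k + 1)]
        exact Ideal.mul_mem_mul (ih ha) hb'
      have h2 : a * (dil G m b - (m : GR G) * b) ∈ aug G ^ (k + 1 + 1) := by
        rw [show k + 1 + 1 = k + 2 from rfl, pow_add]
        exact Ideal.mul_mem_mul ha (dil_aug m hb)
      have := add_mem h1 (Ideal.mul_mem_left _ ((m : GR G) ^ k) h2)
      convert this using 1
      rw [map_mul]; ring
    · intro a b ha hb
      have := add_mem ha hb
      convert this using 1
      rw [map_add]; ring

lemma dil_aug_pow' (m k : ℕ) {x : GR G} (hx : x ∈ aug G ^ k) :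
    dil G m x - ((m : ℚ) ^ k) • x ∈ aug G ^ (k + 1) := by
  have := dil_aug_pow m k hx
  rwa [Algebra.smul_def, map_pow, map_natCast]

/-- the group ring element of a multiset -/
def toR (P : Multiset G) : GR G := (P.map xg).sum

lemma toR_add (P Q : Multiset G) : toR (P + Q) = toR P + toR Q := by simp [toR]

lemma toR_zero : toR (0 : Multiset G) = 0 := by simp [toR]

lemma toR_singleton (g : G) : toR {g} = xg g := by simp [toR]

lemma toR_nsmul (n : ℕ) (P : Multiset G) : toR (n • P) = (n : ℚ) • toR P := by
  induction n with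
  | zero => simp [toR_zero]
  | succ n ih => rw [succ_nsmul, toR_add, ih]; push_cast; rw [add_smul, one_smul]

lemma lin_toR {Q : Type*} [AddCommGroup Q] [Module ℚ Q] (L : GR G →ₗ[ℚ] Q) (P : Multiset G) :
    L (toR P) = (P.map fun g => L (xg g)).sum := by
  rw [toR, map_multiset_sum, Multiset.map_map]; rfl

lemma toR_inj {P Q : Multiset G} (h : toR P = toR Q) : P = Q := by
  classical
  have key : ∀ (P : Multiset G) (g : G), (toR P).coeff g = (P.count g : ℚ) := by
    intro P g
    induction P using Multiset.induction_on with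
    | empty => simp [toR]
    | cons a s ih =>
      rw [← Multiset.singleton_add, toR_add, toR_singleton, coeff_add, Finsupp.add_apply, ih,
        Multiset.count_add, Multiset.count_singleton]
      simp only [xg, coeff_single, Finsupp.single_apply]
      by_cases hga : a = g
      · subst hga; simp
      · simp [hga, Ne.symm hga]
  ext g
  have := key P g
  rw [h, key Q g] at this
  exact_mod_cast this.symm

end

end Vale.Agent.P058
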