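import Vale.Agent.P058.Kite

/-! A concyclic set that is not Ramsey. -/

namespace Vale.Agent.P058

open scoped TensorProduct Polynomial nonZeroDivisors

noncomputable section

lemma poly4 {K : Type*} [Field K] [CharZero K] (c0 c1 c2 c3 c4 t : K) (f : K → K)
    (hf : ∀ u, f u = c0 + c1 * u + c2 * u ^ 2 + c3 * u ^ 3 + c4 * u ^ 4)
    (h0 : f t = 0) (h1 : f (t + 1) = 0) (h2 : f (t + 2) = 0) (h3 : f (t + 3) = 0)
    (h4 : f (t + 4) = 0) (v : K) : f v = 0 := by
  rw [hf] at *
  obtain ⟨w, rfl⟩ : ∃ w, v = t + w := ⟨v - t, by ring⟩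
  linear_combination (w - 1) * (w - 2) * (w - 3) * (w - 4) / 24 * h0
    - w * (w - 2) * (w - 3) * (w - 4) / 6 * h1 + w * (w - 1) * (w - 3) * (w - 4) / 4 * h2
    - w * (w - 1) * (w - 2) * (w - 4) / 6 * h3 + w * (w - 1) * (w - 2) * (w - 3) / 24 * h4

lemma deriv_eq {d : ℕ} {ι : Type} {K : Type} [Field K] [Algebra ℚ K] (D : K →ₗ[ℚ] K)
    (hD : ∀ x y, D (x * y) = x * D y + y * D x) (p : ι → Option (Fin d) → K)
    (h : TensorSolvable K p) :
    ∃ Q L L' m : Option (Fin d) → Option (Fin d) → K,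
      (∀ j k, m (some j) (some k) = if j = k then 1 else 0) ∧
      ∀ i, ∑ α, ∑ β, (p i α * p i β * Q α β + p i α * D (p i β) * L α β +
        D (p i α) * p i β * L' α β + D (p i α) * D (p i β) * m α β) = 0 := by
  obtain ⟨P, h1, h2⟩ := h
  let μ : (K →ₗ[ℚ] K) → (K →ₗ[ℚ] K) → K ⊗[ℚ] K →ₗ[ℚ] K := fun f g =>
    (LinearMap.mul' ℚ K).comp (TensorProduct.map f g)
  have hμ : ∀ f g x y, μ f g (x ⊗ₜ[ℚ] y) = f x * g y := fun f g x y => by simp [μ]
  have key : ∀ (a b : K) (z : K ⊗[ℚ] K), μ D D ((a ⊗ₜ[ℚ] (1 : K)) * z * ((1 : K) ⊗ₜ[ℚ] b)) =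
      a * b * μ D D z + a * D b * μ D LinearMap.id z + D a * b * μ LinearMap.id D z +
        D a * D b * Algebra.TensorProduct.lmul' ℚ z := by
    intro a b z
    induction z using TensorProduct.induction_on with
    | zero => simp
    | tmul x y =>
      simp only [Algebra.TensorProduct.tmul_mul_tmul, hμ, mul_one, one_mul, hD, LinearMap.id_apply,
        Algebra.TensorProduct.lmul'_apply_tmul]
      ring
    | add x y hx hy => simp only [mul_add, add_mul, map_add, hx, hy]; ring
  refine ⟨fun α β => μ D D (P α β), fun α β => μ D LinearMap.id (P α β),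
    fun α β => μ LinearMap.id D (P α β), fun α β => Algebra.TensorProduct.lmul' ℚ (P α β), h2,
    fun i => ?_⟩
  simp only [← key, ← map_sum, h1, map_zero]

/-- homogeneous coordinates of the point with parameter `u` on the circle `x² + y² = x` -/
def hp {K : Type} [Field K] (u : K) : Option (Fin 2) → K :=
  fun α => α.elim 1 ![1 / (1 + u ^ 2), u / (1 + u ^ 2)]

lemma not_solvable {K : Type} [Field K] [CharZero K] [Algebra ℚ K] (D : K →ₗ[ℚ] K)
    (hD : ∀ x y, D (x * y) = x * D y + y * D x) (hK : ∀ u : K, 1 + u ^ 2 ≠ 0) (t : K)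
    (ht : D t = 1) (U : Fin 11 → K)
    (hU : U = ![0, 0 + 1, 0 + 2, 0 + 3, 0 + 4, t, t + 1, t + 2, t + 3, t + 4, 2 * t]) :
    ¬ TensorSolvable K (fun i => hp (U i)) := by
  intro h
  obtain ⟨Q, L, L', m, hm, h⟩ := deriv_eq D hD _ h
  have D1 : D 1 = 0 := by
    have := hD 1 1
    simp only [mul_one, one_mul] at this
    linear_combination -this
  have Dn : ∀ n : ℕ, D n = 0 := fun n => by
    rw [← nsmul_one, map_nsmul, D1, nsmul_zero]
  have D2 : D 2 = 0 := by exact_mod_cast Dn 2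
  have D3 : D 3 = 0 := by exact_mod_cast Dn 3
  have D4 : D 4 = 0 := by exact_mod_cast Dn 4
  have Dc : ∀ u, D (1 / (1 + u ^ 2)) = -2 * u * D u / (1 + u ^ 2) ^ 2 := fun u => by
    have e := hD (1 + u ^ 2) (1 / (1 + u ^ 2))
    rw [mul_one_div_cancel (hK u), D1, map_add, D1, sq, hD, ← sq] at e
    have := hK u
    field_simp at e ⊢
    linear_combination -e
  have Ds : ∀ u, D (u / (1 + u ^ 2)) = (1 - u ^ 2) * D u / (1 + u ^ 2) ^ 2 := fun u => by
    rw [div_eq_mul_one_div, hD, Dc]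
    have := hK u
    field_simp
    ring
  let q : K → K := fun u => Q none none * (1 + u ^ 2) ^ 2 +
    (Q none (some 0) + Q (some 0) none) * (1 + u ^ 2) +
    (Q none (some 1) + Q (some 1) none) * u * (1 + u ^ 2) + Q (some 0) (some 0) +
    (Q (some 0) (some 1) + Q (some 1) (some 0)) * u + Q (some 1) (some 1) * u ^ 2
  let M : Option (Fin 2) → Fin 2 → K := fun α j => L α (some j) + L' (some j) α
  let l : K → K := fun u => (1 + u ^ 2) * (M none 0 * (-2 * u) + M none 1 * (1 - u ^ 2)) +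
    (M (some 0) 0 * (-2 * u) + M (some 0) 1 * (1 - u ^ 2)) +
    u * (M (some 1) 0 * (-2 * u) + M (some 1) 1 * (1 - u ^ 2)) + (1 + u ^ 2)
  have E : ∀ i, (1 + U i ^ 2) * q (U i) + D (U i) * l (U i) +
      (D (U i) ^ 2 - D (U i)) * (1 + U i ^ 2) = 0 := by
    intro i
    have e := h i
    generalize U i = u at e ⊢
    simp only [Fintype.sum_option, Fin.sum_univ_two, hp, Option.elim_none, Option.elim_some,
      Matrix.cons_val_zero, Matrix.cons_val_one, D1, Dc, Ds, hm] at e
    simp only [if_true, Fin.zero_eq_one_iff, Fin.one_eq_zero_iff, OfNat.ofNat_ne_one,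
      if_false] at e
    have := hK u
    simp only [q, l, M]
    field_simp at e
    apply mul_left_cancel₀ this
    linear_combination e
  have hq : ∀ v, q v = 0 := by
    have e : ∀ i, D (U i) = 0 → q (U i) = 0 := fun i hi => by
      have := E i
      rw [hi] at this
      exact (mul_eq_zero.mp (by linear_combination this)).resolve_left (hK (U i))
    refine poly4 (Q none none + Q none (some 0) + Q (some 0) none + Q (some 0) (some 0))
      (Q none (some 1) + Q (some 1) none + Q (some 0) (some 1) + Q (some 1) (some 0))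
      (2 * Q none none + Q none (some 0) + Q (some 0) none + Q (some 1) (some 1))
      (Q none (some 1) + Q (some 1) none) (Q none none) 0 q (fun u => by simp only [q]; ring)
      ?_ ?_ ?_ ?_ ?_
    · simpa [hU] using e 0 (by simp [hU])
    · simpa [hU] using e 1 (by simp [hU, D1])
    · simpa [hU] using e 2 (by simp [hU, D2])
    · simpa [hU] using e 3 (by simp [hU, D3])
    · simpa [hU] using e 4 (by simp [hU, D4])
  have hl : ∀ v, l v = 0 := by
    have e : ∀ i, D (U i) = 1 → l (U i) = 0 := fun i hi => by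
      have := E i
      rw [hi, hq] at this
      linear_combination this
    refine poly4 (M none 1 + M (some 0) 1 + 1)
      (-2 * M none 0 - 2 * M (some 0) 0 + M (some 1) 1)
      (- M (some 0) 1 - 2 * M (some 1) 0 + 1)
      (-2 * M none 0 - M (some 1) 1) (- M none 1) t l (fun u => by simp only [l]; ring)
      ?_ ?_ ?_ ?_ ?_
    · simpa [hU] using e 5 (by simp [hU, ht])
    · simpa [hU] using e 6 (by simp [hU, D1, ht])
    · simpa [hU] using e 7 (by simp [hU, D2, ht])
    · simpa [hU] using e 8 (by simp [hU, D3, ht])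
    · simpa [hU] using e 9 (by simp [hU, D4, ht])
  have e := E 10
  have e2 : D (U 10) = 2 := by
    simp [hU, hD, ht, D2]
  rw [hq, hl, e2] at e
  exact hK (U 10) (by linear_combination e / 2)

lemma exists_deriv (K : Type) [Field K] [Algebra ℚ[X] K] [IsFractionRing ℚ[X] K] :
    ∃ D : K →+ K, (∀ x y, D (x * y) = x * D y + y * D x) ∧
      D (algebraMap ℚ[X] K Polynomial.X) = 1 := by
  let g : ℚ[X] →+* TrivSqZeroExt K K :=
    Polynomial.eval₂RingHom ((TrivSqZeroExt.inlHom K K).comp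
      ((algebraMap ℚ[X] K).comp Polynomial.C))
      (TrivSqZeroExt.inl (algebraMap ℚ[X] K Polynomial.X) + TrivSqZeroExt.inr 1)
  have hg : ∀ y, (g y).fst = algebraMap ℚ[X] K y := fun y => by
    have : (TrivSqZeroExt.fstHom K K K).toRingHom.comp g = algebraMap ℚ[X] K := by
      apply Polynomial.ringHom_ext <;> simp [g]
    exact RingHom.congr_fun this y
  have hu : ∀ y : ℚ[X]⁰, IsUnit (g y) := fun y => by
    rw [TrivSqZeroExt.isUnit_iff_isUnit_fst, hg]
    exact IsLocalization.map_units K y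
  let φ : K →+* TrivSqZeroExt K K := IsLocalization.lift hu
  have hφ : ∀ y, φ (algebraMap ℚ[X] K y) = g y := fun y => IsLocalization.lift_eq hu y
  have hφ1 : ∀ x, (φ x).fst = x := fun x => by
    have : (TrivSqZeroExt.fstHom K K K).toRingHom.comp φ = RingHom.id K := by
      apply IsLocalization.ringHom_ext ℚ[X]⁰
      refine RingHom.ext fun y => ?_
      simp [hφ, hg]
    exact RingHom.congr_fun this x
  refine ⟨(TrivSqZeroExt.sndHom K K).toAddMonoidHom.comp φ.toAddMonoidHom, fun x y => ?_, ?_⟩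
  · simp [TrivSqZeroExt.snd_mul, hφ1, mul_comm]
  · simp [hφ, g]

lemma not_ramsey_aux (K : Type) [Field K] [CharZero K] [Algebra ℚ[X] K] [IsFractionRing ℚ[X] K] :
    ∃ A : Finset (Euc 2), A.Nonempty ∧
      (∃ (z : Euc 2) (ρ : ℝ), ∀ y ∈ A, dist y z = ρ) ∧ ¬ IsRamsey A := by
  classical
  obtain ⟨τ, hτ, -⟩ := dense_liouville.exists_between (show (0 : ℝ) < 1 by norm_num)
  have h3 : Transcendental ℚ τ := by
    have := (Liouville.transcendental hτ)
    exact fun h => this ((IsFractionRing.isAlgebraic_iff ℤ ℚ ℝ).mpr h)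
  have hinj : Function.Injective (Polynomial.aeval τ : ℚ[X] →ₐ[ℚ] ℝ).toRingHom :=
    transcendental_iff_injective.mp h3
  let ψ : K →+* ℝ := IsFractionRing.lift hinj
  let _ : Algebra K ℝ := ψ.toAlgebra
  have : IsScalarTower ℚ K ℝ :=
    IsScalarTower.of_algebraMap_eq fun x => by simp
  obtain ⟨D, hD, ht⟩ := exists_deriv K
  have hK : ∀ u : K, 1 + u ^ 2 ≠ 0 := fun u h => by
    have := congrArg ψ h
    simp only [map_add, map_one, map_pow, map_zero] at this
    nlinarith [sq_nonneg (ψ u)]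
  set t := algebraMap ℚ[X] K Polynomial.X
  obtain ⟨U, hU⟩ : ∃ U : Fin 11 → K, U = ![0, 0 + 1, 0 + 2, 0 + 3, 0 + 4, t,
    t + 1, t + 2, t + 3, t + 4, 2 * t] := ⟨_, rfl⟩
  let pt : ℝ → Euc 2 := fun u => !₂[1 / (1 + u ^ 2), u / (1 + u ^ 2)]
  let A : Finset (Euc 2) := Finset.univ.image fun i => pt (ψ (U i))
  have hA : A.Nonempty := Finset.univ_nonempty.image _
  refine ⟨A, hA, ⟨!₂[1 / 2, 0], 1 / 2, fun y hy => ?_⟩, fun h => ?_⟩
  · obtain ⟨i, -, rfl⟩ := Finset.mem_image.mp hy
    generalize ψ (U i) = u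
    rw [EuclideanSpace.dist_eq, Real.sqrt_eq_iff_mul_self_eq (by positivity) (by norm_num)]
    have : 1 + u ^ 2 ≠ 0 := by positivity
    simp [pt, Real.dist_eq]
    field_simp
    ring
  · obtain ⟨Θ, h1, h2⟩ := critR_of_ramsey A hA h
    have h4 : CritR fun i : Fin 11 => fun k => pt (ψ (U i)) k :=
      ⟨Θ, fun i => h1 ⟨_, Finset.mem_image_of_mem _ (Finset.mem_univ i)⟩, h2⟩
    refine not_solvable D.toRatLinearMap hD hK _ ht U hU (solvable_of_critR (fun i α => ?_) h4)
    change ψ _ = _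
    rcases α with _ | j
    · simp [hp]
    · fin_cases j <;> simp [hp, pt]

theorem exists_concyclic_not_ramsey : ∃ A : Finset (Euc 2), A.Nonempty ∧
    (∃ (z : Euc 2) (ρ : ℝ), ∀ y ∈ A, dist y z = ρ) ∧ ¬ IsRamsey A :=
  haveI : CharZero (FractionRing ℚ[X]) :=
    charZero_of_injective_algebraMap (IsFractionRing.injective ℚ[X] _)
  not_ramsey_aux (FractionRing ℚ[X])

end

end Vale.Agent.P058
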