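import Vale.Agent.P058.Subtrans

/-! Small concyclic sets are Ramsey; the transcendental kite is not subtransitive. -/

namespace Vale.Agent.P058

open Matrix

noncomputable section

lemma line_small {x z : Fin 2 → ℝ} {R : ℝ} (hx : ∑ k, (x k - z k) ^ 2 = R)
    {ι : Type*} [DecidableEq ι] (a : ι → Fin 2 → ℝ) (T : Finset ι) (hT : T.card ≤ 2)
    (ha : ∀ i, ∑ k, (a i k - z k) ^ 2 = R) (hne : ∀ i ∈ T, a i ≠ x) :
    ∃ u : VV 2, ev x u = 1 ∧ ∀ i ∈ T, ev (a i) u = 0 := by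
  obtain h | h | h : T.card = 0 ∨ T.card = 1 ∨ T.card = 2 := by omega
  · rw [Finset.card_eq_zero] at h
    subst h
    exact ⟨cst 2 1, by simp, by simp⟩
  · obtain ⟨p, rfl⟩ := Finset.card_eq_one.mp h
    obtain ⟨u, h1, h2⟩ := exists_sep (hne p (by simp)).symm
    exact ⟨u, h1, by simpa using h2⟩
  · obtain ⟨p, q, -, rfl⟩ := Finset.card_eq_two.mp h
    obtain ⟨u, h1, h2, h3⟩ := line_two hx (ha p) (ha q) (hne p (by simp)) (hne q (by simp))
    exact ⟨u, h1, by simp [h2, h3]⟩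

theorem ramsey_of_concyclic (A : Finset (Euc 2)) (hA : A.card ≤ 5) (z : Euc 2) (ρ : ℝ)
    (h : ∀ y ∈ A, dist y z = ρ) : IsRamsey A := by
  classical
  have hz : ∀ i : A, ∑ k, (pts A i k - z k) ^ 2 = ρ ^ 2 := fun i => by
    rw [← h i i.2, EuclideanSpace.dist_eq, Real.sq_sqrt (by positivity)]
    simp [pts, Real.dist_eq]
  refine ramsey_of_critR A (critR_of_two_planes (pts A) (fun k => z k) (ρ ^ 2) hz fun i => ?_)
  have hc : (Finset.univ.erase i).card ≤ 4 := by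
    rw [Finset.card_erase_of_mem (Finset.mem_univ i), Finset.card_univ, Fintype.card_coe]
    omega
  obtain ⟨S, hS, hSc⟩ := Finset.exists_subset_card_eq
    (show min 2 (Finset.univ.erase i).card ≤ (Finset.univ.erase i).card from min_le_right _ _)
  have hne : ∀ j ∈ Finset.univ.erase i, pts A j ≠ pts A i := fun j hj e =>
    Finset.ne_of_mem_erase hj (pts_inj A e)
  obtain ⟨u, hu, hu'⟩ := line_small (hz i) (pts A) S (by omega) hz fun j hj => hne j (hS hj)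
  obtain ⟨v, hv, hv'⟩ := line_small (hz i) (pts A) (Finset.univ.erase i \ S)
    (by rw [Finset.card_sdiff_of_subset hS]; omega) hz
    fun j hj => hne j (Finset.mem_sdiff.mp hj).1
  refine ⟨u, v, hu, hv, fun j hj => ?_⟩
  by_cases hjS : j ∈ S
  · exact Or.inl (hu' j hjS)
  · exact Or.inr (hv' j (by simp [hj, hjS]))

lemma transc_ker {G X : Type*} [Fintype G] [Fintype X] [DecidableEq G] [DecidableEq X]
    (A B : Matrix G X ℚ) (hker : ∀ F : X → ℚ, A *ᵥ F = 0 → B *ᵥ F = 0) {s : ℝ}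
    (hs : Transcendental ℚ s) (F : X → ℝ)
    (h : A.map (algebraMap ℚ ℝ) *ᵥ F + s • (B.map (algebraMap ℚ ℝ) *ᵥ F) = 0) :
    A.map (algebraMap ℚ ℝ) *ᵥ F = 0 := by
  have hk : LinearMap.ker A.mulVecLin ≤ LinearMap.ker B.mulVecLin := fun F hF => hker F hF
  obtain ⟨c, hc⟩ := LinearMap.exists_extend
    (((LinearMap.ker A.mulVecLin).liftQ B.mulVecLin hk).comp
      A.mulVecLin.quotKerEquivRange.symm.toLinearMap)
  have hc' : ∀ F, c (A *ᵥ F) = B *ᵥ F := fun F => by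
    have := LinearMap.congr_fun hc ⟨A.mulVecLin F, LinearMap.mem_range_self _ F⟩
    rw [LinearMap.comp_apply, LinearMap.comp_apply, LinearEquiv.coe_toLinearMap,
      LinearMap.quotKerEquivRange_symm_apply_image] at this
    exact this
  let C := LinearMap.toMatrix' c
  have hB : B = C * A := by
    apply Matrix.toLin'.injective
    ext1 F
    rw [Matrix.toLin'_mul]
    ext1
    simp only [C, Matrix.toLin'_toMatrix', LinearMap.comp_apply, Matrix.toLin'_apply, hc']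
  by_contra hv
  have hs0 : s ≠ 0 := by
    rintro rfl
    exact hs isAlgebraic_zero
  set v := A.map (algebraMap ℚ ℝ) *ᵥ F
  have h1 : (Matrix.scalar G (-s⁻¹) - C.map (algebraMap ℚ ℝ)) *ᵥ v = 0 := by
    rw [hB, Matrix.map_mul, ← Matrix.mulVec_mulVec] at h
    change v + s • (_ *ᵥ v) = 0 at h
    rw [Matrix.sub_mulVec]
    have : Matrix.scalar G (-s⁻¹) *ᵥ v = (-s⁻¹) • v := by
      ext g; simp [Matrix.scalar_apply, Matrix.mulVec_diagonal]
    rw [this]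
    have h2 := congrArg (fun w => (-s⁻¹) • w) h
    simp only [smul_add, smul_smul, smul_zero] at h2
    rw [neg_mul, inv_mul_cancel₀ hs0, neg_smul 1, one_smul] at h2
    rw [sub_eq_add_neg]; exact h2
  have h2 := Matrix.exists_mulVec_eq_zero_iff.mp ⟨v, hv, h1⟩
  rw [← Matrix.eval_charpoly, Matrix.charpoly_map, Polynomial.eval_map_algebraMap] at h2
  have h3 : IsAlgebraic ℚ (-s⁻¹) := ⟨_, C.charpoly_monic.ne_zero, h2⟩
  exact hs (by simpa using h3.neg.inv)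

lemma convex_step {G K : Type*} [Fintype G] [Field K] [LinearOrder K] [IsStrictOrderedRing K]
    (f1 f2 f3 f4 : G → K) (h1 : ∑ g, f1 g ^ 2 = ∑ g, f2 g ^ 2)
    (h3 : ∑ g, f3 g ^ 2 = ∑ g, f2 g ^ 2) (h4 : ∑ g, f4 g ^ 2 = ∑ g, f2 g ^ 2)
    (h : ∀ g, f3 g + f4 g + f1 g - 3 * f2 g = 0) (g : G) : f1 g - f2 g = 0 := by
  have e : ∑ g, ((f1 g - f2 g) ^ 2 + (f3 g - f2 g) ^ 2 + (f4 g - f2 g) ^ 2) = 0 := by
    have : ∀ g, (f1 g - f2 g) ^ 2 + (f3 g - f2 g) ^ 2 + (f4 g - f2 g) ^ 2 =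
        f1 g ^ 2 + f3 g ^ 2 + f4 g ^ 2 - 3 * f2 g ^ 2 := fun g => by
      linear_combination (-2 * f2 g) * h g
    simp only [this, Finset.sum_sub_distrib, Finset.sum_add_distrib, ← Finset.mul_sum, h1, h3, h4]
    ring
  rw [Finset.sum_eq_zero_iff_of_nonneg fun _ _ => by positivity] at e
  have := e g (Finset.mem_univ g)
  nlinarith [sq_nonneg (f1 g - f2 g), sq_nonneg (f3 g - f2 g), sq_nonneg (f4 g - f2 g)]

lemma no_kite {n : ℕ} {X : Finset (Euc n)} (hX : IsTransitive X) {a : ℝ}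
    (ha : Transcendental ℚ a) (x1 x2 x3 x4 : X)
    (h12 : ∑ k, (x1.1 k - x2.1 k) ^ 2 = 4) (h13 : ∑ k, (x1.1 k - x3.1 k) ^ 2 = 2 + 2 * a)
    (h14 : ∑ k, (x1.1 k - x4.1 k) ^ 2 = 2 + 2 * a) (h23 : ∑ k, (x2.1 k - x3.1 k) ^ 2 = 2 - 2 * a)
    (h24 : ∑ k, (x2.1 k - x4.1 k) ^ 2 = 2 - 2 * a)
    (h34 : ∑ k, (x3.1 k - x4.1 k) ^ 2 = 4 * (1 - a ^ 2)) : False := by
  classical
  have : Fintype (symGrp X) := Fintype.ofFinite _
  have hsum : ∀ {K : Type} [Field K] (F : X → K) (x y : X),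
      ∑ π : symGrp X, F (π.1 x) ^ 2 = ∑ π : symGrp X, F (π.1 y) ^ 2 := by
    intro K _ F x y
    obtain ⟨σ, rfl⟩ := symGrp_trans hX y x
    exact Fintype.sum_equiv (Equiv.mulRight σ) _ _ fun π => rfl
  let δ : X → X → ℚ := fun x y => if y = x then 1 else 0
  let A : Matrix (symGrp X) X ℚ := Matrix.of fun π y =>
    δ (π.1 x3) y + δ (π.1 x4) y + δ (π.1 x1) y - 3 * δ (π.1 x2) y
  let B : Matrix (symGrp X) X ℚ := Matrix.of fun π y => δ (π.1 x1) y - δ (π.1 x2) y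
  have hA : ∀ {K : Type} [Field K] [CharZero K] (F : X → K) (π : symGrp X),
      (A.map (algebraMap ℚ K) *ᵥ F) π =
        F (π.1 x3) + F (π.1 x4) + F (π.1 x1) - 3 * F (π.1 x2) := by
    intro K _ _ F π
    simp [A, δ, Matrix.mulVec, dotProduct, add_mul, sub_mul, Finset.sum_add_distrib,
      Finset.sum_sub_distrib, apply_ite (fun q : ℚ => (q : K))]
  have hB : ∀ {K : Type} [Field K] [CharZero K] (F : X → K) (π : symGrp X),
      (B.map (algebraMap ℚ K) *ᵥ F) π = F (π.1 x1) - F (π.1 x2) := by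
    intro K _ _ F π
    simp [B, δ, Matrix.mulVec, dotProduct, sub_mul,
      Finset.sum_sub_distrib, apply_ite (fun q : ℚ => (q : K))]
  have hconv : ∀ {K : Type} [Field K] [LinearOrder K] [IsStrictOrderedRing K] (F : X → K),
      A.map (algebraMap ℚ K) *ᵥ F = 0 → B.map (algebraMap ℚ K) *ᵥ F = 0 := by
    intro K _ _ _ F hF
    ext π
    rw [hB]
    exact convex_step (fun π : symGrp X => F (π.1 x1)) (fun π => F (π.1 x2))
      (fun π => F (π.1 x3)) (fun π => F (π.1 x4)) (hsum F _ _) (hsum F _ _) (hsum F _ _)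
      (fun π => by rw [← hA F π, hF]; rfl) π
  have hs : Transcendental ℚ (a - 2) := fun h => ha (by
    simpa using h.add (isAlgebraic_natCast (R := ℚ) (A := ℝ) 2))
  have hrel : ∀ (π : symGrp X) k, (π.1 x3).1 k + (π.1 x4).1 k + (π.1 x1).1 k - 3 * (π.1 x2).1 k
      + (a - 2) * ((π.1 x1).1 k - (π.1 x2).1 k) = 0 := by
    intro π k
    have e : ∑ k, ((π.1 x3).1 k + (π.1 x4).1 k + (π.1 x1).1 k - 3 * (π.1 x2).1 k
      + (a - 2) * ((π.1 x1).1 k - (π.1 x2).1 k)) ^ 2 = 0 := by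
      have e1 : ∀ b1 b2 b3 b4 : ℝ, (b3 + b4 + b1 - 3 * b2 + (a - 2) * (b1 - b2)) ^ 2 =
          -(1 - a ^ 2) * (b1 - b2) ^ 2 + (1 - a) * (b1 - b3) ^ 2 + (1 - a) * (b1 - b4) ^ 2
          + (1 + a) * (b2 - b3) ^ 2 + (1 + a) * (b2 - b4) ^ 2 - (b3 - b4) ^ 2 := by
        intros; ring
      simp only [e1, Finset.sum_sub_distrib, Finset.sum_add_distrib, ← Finset.mul_sum,
        sum_sq_of_dist (π.2 _ _), h12, h13, h14, h23, h24, h34]
      ring
    rw [Finset.sum_eq_zero_iff_of_nonneg fun _ _ => by positivity] at e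
    exact pow_eq_zero_iff two_ne_zero |>.mp (e k (Finset.mem_univ k))
  have hfin : ∀ k, x1.1 k - x2.1 k = 0 := by
    intro k
    have h1 := transc_ker A B (fun F hF => hconv F hF) hs
      (fun y : X => y.1 k) (by
        ext π
        rw [Pi.add_apply, Pi.smul_apply, hA, hB, smul_eq_mul]
        exact hrel π k)
    have h2 := congrFun (hconv _ h1) 1
    rw [hB] at h2
    exact h2
  simp [hfin] at h12

/-- the kite with parameter `a` -/
def kite (a : ℝ) : Finset (Euc 2) := by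
  classical
  exact {!₂[-1, 0], !₂[1, 0], !₂[a, √(1 - a ^ 2)], !₂[a, -√(1 - a ^ 2)]}

theorem kite_not_subtransitive {a : ℝ} (ha : Transcendental ℚ a) (h1 : a ^ 2 ≤ 1) :
    ¬ IsSubtransitive (kite a) := by
  rintro ⟨n, X, hX, _, hB, f, hf, rfl⟩
  have hs : √(1 - a ^ 2) ^ 2 = 1 - a ^ 2 := Real.sq_sqrt (by linarith)
  have m1 : !₂[-1, 0] ∈ kite a := by simp [kite]
  have m2 : !₂[1, 0] ∈ kite a := by simp [kite]
  have m3 : !₂[a, √(1 - a ^ 2)] ∈ kite a := by simp [kite]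
  have m4 : !₂[a, -√(1 - a ^ 2)] ∈ kite a := by simp [kite]
  refine no_kite hX ha ⟨f _, hB ⟨_, m1, rfl⟩⟩ ⟨f _, hB ⟨_, m2, rfl⟩⟩ ⟨f _, hB ⟨_, m3, rfl⟩⟩
    ⟨f _, hB ⟨_, m4, rfl⟩⟩ ?_ ?_ ?_ ?_ ?_ ?_
  · rw [sum_sq_of_dist (hf _ m1 _ m2)]; simp; norm_num
  · rw [sum_sq_of_dist (hf _ m1 _ m3)]; simp; linarith
  · rw [sum_sq_of_dist (hf _ m1 _ m4)]; simp; linarith
  · rw [sum_sq_of_dist (hf _ m2 _ m3)]; simp; linarith
  · rw [sum_sq_of_dist (hf _ m2 _ m4)]; simp; linarith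
  · rw [sum_sq_of_dist (hf _ m3 _ m4)]; simp; linarith

theorem kite_ramsey {a : ℝ} (h1 : a ^ 2 ≤ 1) : IsRamsey (kite a) := by
  have hs : √(1 - a ^ 2) ^ 2 = 1 - a ^ 2 := Real.sq_sqrt (by linarith)
  refine ramsey_of_concyclic _ ?_ 0 1 fun y hy => ?_
  · classical
    exact Finset.card_le_four.trans (by norm_num)
  · simp only [kite, Finset.mem_insert, Finset.mem_singleton] at hy
    rw [EuclideanSpace.dist_eq]
    rcases hy with rfl | rfl | rfl | rfl <;> simp [hs]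

theorem exists_ramsey_not_subtransitive :
    ∃ A : Finset (Euc 2), A.Nonempty ∧ IsRamsey A ∧ ¬ IsSubtransitive A := by
  obtain ⟨a, ha, h0, h1⟩ := dense_liouville.exists_between (show (0 : ℝ) < 1 by norm_num)
  have h2 : a ^ 2 ≤ 1 := by nlinarith
  have h3 : Transcendental ℚ a := by
    have := (Liouville.transcendental ha)
    exact fun h => this ((IsFractionRing.isAlgebraic_iff ℤ ℚ ℝ).mpr h)
  exact ⟨kite a, ⟨!₂[1, 0], by simp [kite]⟩, kite_ramsey h2, kite_not_subtransitive h3 h2⟩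

end

end Vale.Agent.P058
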