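import Vale.Agent.P058.Suff

/-! Necessity of the tensor criterion over the reals. -/

namespace Vale.Agent.P058

open scoped TensorProduct
open Matrix

noncomputable section

set_option linter.unusedSectionVars false

variable {d : ℕ} {ι : Type*} [Fintype ι] [DecidableEq ι]

lemma exists_proj (A : Matrix ι (Fin d) ℝ) : ∃ S : Matrix ι (Fin d) ℝ, A * (Aᵀ * S) = A := by
  let α : ι → Euc d := fun i => WithLp.toLp 2 (A i)
  have : ∀ j : Fin d, ∃ s : ι → ℝ, ∀ l, ∑ k, A l k * ∑ i, A i k * s i = A l j := by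
    intro j
    obtain ⟨y, hy, z, hz, h⟩ := (Submodule.span ℝ (Set.range α)).exists_add_mem_mem_orthogonal
      (EuclideanSpace.single j (1 : ℝ))
    obtain ⟨s, rfl⟩ := (Submodule.mem_span_range_iff_exists_fun ℝ).mp hy
    refine ⟨s, fun l => ?_⟩
    have h1 : inner ℝ (α l) z = 0 :=
      (Submodule.mem_orthogonal _ _).mp hz _ (Submodule.subset_span ⟨l, rfl⟩)
    have h2 := congrArg (inner ℝ (α l)) h
    rw [inner_add_right, h1, add_zero] at h2
    simp only [PiLp.inner_apply, α] at h2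
    simp at h2
    rw [h2]
    refine Finset.sum_congr rfl fun k _ => ?_
    rw [mul_comm]; congr 1
    exact Finset.sum_congr rfl fun i _ => mul_comm _ _
  choose s hs using this
  refine ⟨Matrix.of fun i j => s j i, ?_⟩
  ext l j
  simp only [Matrix.mul_apply, Matrix.transpose_apply, Matrix.of_apply]
  exact hs j l

/-- the affine function with linear part `v` and value `c` at `x₀` -/
def aff (x₀ : Fin d → ℝ) (c : ℝ) (v : Fin d → ℝ) : VV d :=
  fun α => α.elim (c - ∑ j, v j * x₀ j) v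

lemma ev_aff (x₀ : Fin d → ℝ) (c : ℝ) (v x : Fin d → ℝ) :
    ev x (aff x₀ c v) = c + ∑ j, (x j - x₀ j) * v j := by
  simp only [ev_apply, aff, Option.elim_none, Option.elim_some, sub_mul, Finset.sum_sub_distrib,
    mul_comm (v _)]
  ring

lemma copy_lines [Nonempty ι] (a : ι → Fin d → ℝ) {D : ℕ} (b : ι → Fin D → ℝ)
    (h : ∀ i j, ∑ k, (b i k - b j k) ^ 2 = ∑ k, (a i k - a j k) ^ 2) :
    ∃ Θ : VV d ⊗[ℚ] VV d,
      (∀ i, TensorProduct.map (evQ (a i)) (evQ (a i)) Θ = ∑ k, b i k ⊗ₜ[ℚ] b i k) ∧ wtT Θ = 1 := by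
  obtain ⟨i₀⟩ := ‹Nonempty ι›
  let A : Matrix ι (Fin d) ℝ := Matrix.of fun i k => a i k - a i₀ k
  let B : Matrix ι (Fin D) ℝ := Matrix.of fun i k => b i k - b i₀ k
  have hG : B * Bᵀ = A * Aᵀ := by
    ext i j
    simp only [Matrix.mul_apply, Matrix.transpose_apply, Matrix.of_apply, A, B]
    have e : ∀ {n : ℕ} (c : ι → Fin n → ℝ), ∑ k, (c i k - c i₀ k) * (c j k - c i₀ k) =
        (∑ k, (c i k - c i₀ k) ^ 2 + ∑ k, (c j k - c i₀ k) ^ 2 - ∑ k, (c i k - c j k) ^ 2) / 2 := by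
      intro n c
      rw [← Finset.sum_add_distrib, ← Finset.sum_sub_distrib, Finset.sum_div]
      exact Finset.sum_congr rfl fun k _ => by ring
    rw [e, e, h, h, h]
  obtain ⟨S, hS⟩ := exists_proj A
  set π := Aᵀ * S with hπ
  have h1 : πᵀ * π = πᵀ := by rw [hπ, Matrix.transpose_mul, Matrix.transpose_transpose,
    Matrix.mul_assoc, hS]
  have h2 : πᵀ = π := by
    have := congrArg Matrix.transpose h1
    rw [Matrix.transpose_mul, Matrix.transpose_transpose, h1] at this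
    exact this
  have h3 : π * π = π := by rw [h2] at h1; exact h1
  have h4 : Sᵀ * A = π := by rw [← h2, hπ, Matrix.transpose_mul, Matrix.transpose_transpose]
  set T := Sᵀ * B with hT
  have h5 : A * T = B := by
    have : (A * T - B) * (A * T - B)ᵀ = 0 := by
      have e : A * T - B = (A * Sᵀ - 1) * B := by rw [hT, Matrix.sub_mul, Matrix.one_mul, Matrix.mul_assoc]
      have e2 : (A * Sᵀ - 1) * A = 0 := by
        rw [Matrix.sub_mul, Matrix.one_mul, Matrix.mul_assoc, h4, hS, sub_self]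
      rw [e, Matrix.transpose_mul, Matrix.mul_assoc, ← Matrix.mul_assoc B, hG, ← Matrix.mul_assoc,
        ← Matrix.mul_assoc, e2, Matrix.zero_mul, Matrix.zero_mul]
    rw [← Matrix.conjTranspose_eq_transpose_of_trivial] at this
    exact sub_eq_zero.mp (Matrix.self_mul_conjTranspose_eq_zero.mp this)
  have h6 : T * Tᵀ = π := by
    rw [hT, Matrix.transpose_mul, Matrix.transpose_transpose, Matrix.mul_assoc, ← Matrix.mul_assoc B,
      hG, ← Matrix.mul_assoc, ← Matrix.mul_assoc, h4, Matrix.mul_assoc, ← hπ, h3]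
  have h7 : A * (1 - π) = 0 := by rw [Matrix.mul_sub, Matrix.mul_one, hS, sub_self]
  have h8 : (1 - π) * (1 - π)ᵀ = 1 - π := by
    rw [Matrix.transpose_sub, Matrix.transpose_one, h2, Matrix.sub_mul, Matrix.mul_sub,
      Matrix.mul_sub, h3]; simp
  let u : Fin D → VV d := fun k => aff (a i₀) (b i₀ k) fun j => T j k
  let v : Fin d → VV d := fun k => aff (a i₀) 0 fun j => (1 - π) j k
  have hu : ∀ i k, evQ (a i) (u k) = b i k := fun i k => by
    have := congrFun (congrFun h5 i) k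
    simp only [Matrix.mul_apply, A, B, Matrix.of_apply] at this
    change ev (a i) (u k) = _
    rw [ev_aff, this]; ring
  have hv : ∀ i k, evQ (a i) (v k) = 0 := fun i k => by
    have := congrFun (congrFun h7 i) k
    simp only [Matrix.mul_apply, A, Matrix.of_apply, Matrix.zero_apply] at this
    change ev (a i) (v k) = _
    rw [ev_aff, this]; ring
  refine ⟨∑ k, u k ⊗ₜ[ℚ] u k + ∑ k, v k ⊗ₜ[ℚ] v k, fun i => ?_, ?_⟩
  · simp [map_sum, hu, hv]
  · have e1 : wtT (∑ k, u k ⊗ₜ[ℚ] u k) = T * Tᵀ := by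
      ext j k
      simp [map_sum, wtT_tmul, wt2, Matrix.sum_apply, Matrix.mul_apply, u, aff]
    have e2 : wtT (∑ k, v k ⊗ₜ[ℚ] v k) = (1 - π) * (1 - π)ᵀ := by
      ext j k
      simp only [map_sum, wtT_tmul, wt2, Matrix.sum_apply, Matrix.mul_apply, v, aff,
        Matrix.of_apply, Option.elim_some, Matrix.transpose_apply]
    rw [map_add, e1, e2, h6, h8]; simp

lemma ramsey_fin {A : Finset (Euc d)} (h : IsRamsey A) (κ : Type) [Fintype κ] :
    ∃ D : ℕ, ∀ c : Euc D → κ, ∃ f : Euc d → Euc D,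
      (∀ x ∈ A, ∀ y ∈ A, dist (f x) (f y) = dist x y) ∧ ∀ x ∈ A, ∀ y ∈ A, c (f x) = c (f y) := by
  obtain ⟨D, -, hD⟩ := h (Fintype.card κ + 2) (by omega)
  refine ⟨D, fun c => ?_⟩
  let e : κ → Fin (Fintype.card κ + 2) := fun k => Fin.castAdd 2 (Fintype.equivFin κ k)
  have he : Function.Injective e := (Fin.castAdd_injective _ _).comp (Fintype.equivFin κ).injective
  obtain ⟨_, ⟨f, hf, rfl⟩, k, hk⟩ := hD (e ∘ c)
  exact ⟨f, hf, fun x hx y hy => he ((hk _ ⟨x, hx, rfl⟩).trans (hk _ ⟨y, hy, rfl⟩).symm)⟩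

lemma sum_sq_of_dist {D : ℕ} {x y : Euc d} {x' y' : Euc D} (h : dist x' y' = dist x y) :
    ∑ k, (x' k - y' k) ^ 2 = ∑ k, (x k - y k) ^ 2 := by
  rw [EuclideanSpace.dist_eq, EuclideanSpace.dist_eq] at h
  simp only [Real.dist_eq, sq_abs] at h
  exact (Real.sqrt_inj (by positivity) (by positivity)).mp h

lemma floor_arg (n : ℕ) (hn : Fintype.card ι = n) (hn0 : 0 < n) (s t : ι → ℚ)
    (hs : ∑ i, s i = 0) (ht : ∑ i, t i = -1)
    (h : ∀ i, ((⌊n * s i⌋ : ℤ) : ZMod (2 * n)) = ((⌊n * t i⌋ : ℤ) : ZMod (2 * n))) : False := by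
  have : Nonempty ι := Fintype.card_pos_iff.mp (hn ▸ hn0)
  have h1 : ((∑ i, ⌊n * s i⌋ : ℤ) : ZMod (2 * n)) = ((∑ i, ⌊n * t i⌋ : ℤ) : ZMod (2 * n)) := by
    push_cast; exact Finset.sum_congr rfl fun i _ => h i
  rw [ZMod.intCast_eq_intCast_iff_dvd_sub] at h1
  have up : ∀ s : ι → ℚ, ((∑ i, ⌊n * s i⌋ : ℤ) : ℚ) ≤ n * ∑ i, s i := fun s => by
    push_cast; rw [Finset.mul_sum]; exact Finset.sum_le_sum fun i _ => Int.floor_le _
  have lo : ∀ s : ι → ℚ, n * ∑ i, s i - n < ((∑ i, ⌊n * s i⌋ : ℤ) : ℚ) := fun s => by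
    push_cast
    have : (n : ℚ) * ∑ i, s i - n = ∑ i, (n * s i - 1) := by
      rw [Finset.sum_sub_distrib, Finset.mul_sum]; simp [hn]
    rw [this]
    exact Finset.sum_lt_sum_of_nonempty Finset.univ_nonempty fun i _ => Int.sub_one_lt_floor _
  have a1 := up s; have a2 := up t; have a3 := lo s; have a4 := lo t
  rw [hs] at a1 a3; rw [ht] at a2 a4
  set S := ∑ i, ⌊n * s i⌋
  set T := ∑ i, ⌊n * t i⌋
  have b1 : (0 : ℤ) < S - T := by
    have : (0 : ℚ) < S - T := by linarith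
    exact_mod_cast this
  have b2 : S - T < 2 * n := by
    have : (S - T : ℚ) < 2 * n := by linarith
    exact_mod_cast this
  have h2 : ((2 * n : ℕ) : ℤ) ∣ S - T := by
    have := h1.neg_right; simpa using this
  have := Int.le_of_dvd b1 h2
  push_cast at this; omega

theorem critR_of_ramsey (A : Finset (Euc d)) (hA : A.Nonempty) (h : IsRamsey A) :
    CritR (pts A) := by
  classical
  by_contra hc
  have : Nonempty A := hA.to_subtype
  let Φ : VV d ⊗[ℚ] VV d →ₗ[ℚ] (A → ℝ ⊗[ℚ] ℝ) × WW d :=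
    (LinearMap.pi fun i => TensorProduct.map (evQ (pts A i)) (evQ (pts A i))).prod wtT
  have h1 : ((0, 1) : (A → ℝ ⊗[ℚ] ℝ) × WW d) ∉ LinearMap.range Φ := by
    rintro ⟨Θ, hΘ⟩
    exact hc ⟨Θ, fun i => congrFun (congrArg Prod.fst hΘ) i, congrArg Prod.snd hΘ⟩
  obtain ⟨Λ, hΛ1, hΛ2⟩ := Submodule.exists_dual_map_eq_bot_of_notMem h1 inferInstance
  have hΛ : ∀ Θ, Λ (Φ Θ) = 0 := fun Θ => by
    have : Λ (Φ Θ) ∈ (LinearMap.range Φ).map Λ := Submodule.mem_map_of_mem ⟨Θ, rfl⟩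
    rwa [hΛ2, Submodule.mem_bot] at this
  set c₀ := Λ (0, 1) with hc₀
  have hsplit : ∀ (z : A → ℝ ⊗[ℚ] ℝ) (M : WW d),
      Λ (z, M) = ∑ i, Λ (Pi.single i (z i), 0) + Λ (0, M) := fun z M => by
    rw [← map_sum, ← map_add]; congr 1
    ext1
    · simp only [Prod.fst_add, Prod.fst_sum, add_zero, Finset.univ_sum_single]
    · simp [Prod.snd_sum]
  set n := Fintype.card A with hn
  have hn0 : 0 < n := Fintype.card_pos
  have : NeZero (2 * n) := ⟨by omega⟩
  obtain ⟨D, hD⟩ := ramsey_fin h (A → ZMod (2 * n))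
  let g : A → Euc D → ℚ := fun i x => Λ (Pi.single i (∑ k, x k ⊗ₜ[ℚ] x k), 0) / c₀
  obtain ⟨f, hf1, hf2⟩ := hD fun x i => ((⌊n * g i x⌋ : ℤ) : ZMod (2 * n))
  obtain ⟨x₀, hx₀⟩ := hA
  refine floor_arg n rfl hn0 (fun i => g i (f x₀)) (fun i => g i (f i)) ?_ ?_
    fun i => congrFun (hf2 x₀ hx₀ i i.2) i
  · have := hΛ (∑ k, cst d (f x₀ k) ⊗ₜ[ℚ] cst d (f x₀ k))
    have e : Φ (∑ k, cst d (f x₀ k) ⊗ₜ[ℚ] cst d (f x₀ k)) =
        (fun _ => ∑ k, f x₀ k ⊗ₜ[ℚ] f x₀ k, 0) := by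
      ext1
      · ext1 i; simp [Φ, map_sum, evQ, Prod.fst_sum, Finset.sum_apply]
      · ext j k; simp [Φ, map_sum, wtT_tmul, wt2, Prod.snd_sum, Matrix.sum_apply]
    rw [e, hsplit] at this
    simp only [g, ← Finset.sum_div]
    rw [show ((0, 0) : (A → ℝ ⊗[ℚ] ℝ) × WW d) = 0 from rfl, map_zero, add_zero] at this
    rw [this, zero_div]
  · obtain ⟨Θ, e1, e2⟩ := copy_lines (pts A) (fun i k => f i k)
      fun i j => sum_sq_of_dist (hf1 i i.2 j j.2)
    have := hΛ Θ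
    have e : Φ Θ = (fun i : A => ∑ k, f i k ⊗ₜ[ℚ] f i k, 1) := by
      ext1
      · ext1 i; exact e1 i
      · exact e2
    rw [e, hsplit] at this
    simp only [g, ← Finset.sum_div]
    rw [div_eq_iff hΛ1]; linarith

end

end Vale.Agent.P058
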