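import Mathlib

/-! The power substitution acts by scalars on the lower central series. -/

namespace Vale.Agent.P058

open scoped commutatorElement

variable {F : Type*} [Group F]

/-- lower central series -/
abbrev LC (F : Type*) [Group F] (c : ℕ) : Subgroup F := (⊤ : Subgroup F).lowerCentralSeries c

instance LC_normal (c : ℕ) : (LC F c).Normal := inferInstance

lemma comm_mem_LC {c : ℕ} {g : F} (hg : g ∈ LC F c) (h : F) : ⁅g, h⁆ ∈ LC F (c + 1) :=
  Subgroup.commutator_mem_commutator hg (Subgroup.mem_top h)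

lemma central_of_LC {c : ℕ} {g : F} (hg : g ∈ LC F c) :
    QuotientGroup.mk' (LC F (c + 1)) g ∈ Subgroup.center (F ⧸ LC F (c + 1)) := by
  rw [Subgroup.mem_center_iff]
  intro y
  obtain ⟨h, rfl⟩ := QuotientGroup.mk'_surjective _ y
  have : QuotientGroup.mk' (LC F (c + 1)) ⁅g, h⁆ = 1 :=
    (QuotientGroup.eq_one_iff _).mpr (comm_mem_LC hg h)
  rw [map_commutatorElement, commutatorElement_eq_one_iff_mul_comm] at this
  exact this.symm

section
variable {Q : Type*} [Group Q]

lemma comm_mul_right (x y z : Q) (h : ⁅x, z⁆ ∈ Subgroup.center Q) :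
    ⁅x, y * z⁆ = ⁅x, y⁆ * ⁅x, z⁆ := by
  have := Subgroup.mem_center_iff.mp h y
  calc ⁅x, y * z⁆ = ⁅x, y⁆ * (y * ⁅x, z⁆) * y⁻¹ := by simp only [commutatorElement_def]; group
    _ = _ := by rw [this]; group

lemma comm_mul_left (x y z : Q) (h : ⁅y, z⁆ ∈ Subgroup.center Q) :
    ⁅x * y, z⁆ = ⁅y, z⁆ * ⁅x, z⁆ := by
  have := Subgroup.mem_center_iff.mp h x
  calc ⁅x * y, z⁆ = (x * ⁅y, z⁆) * x⁻¹ * ⁅x, z⁆ := by simp only [commutatorElement_def]; group
    _ = _ := by rw [this]; group

lemma comm_pow_left (x z : Q) (h : ⁅x, z⁆ ∈ Subgroup.center Q) (n : ℕ) :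
    ⁅x ^ n, z⁆ = ⁅x, z⁆ ^ n := by
  induction n with
  | zero => simp
  | succ n ih => rw [pow_succ, comm_mul_left _ _ _ h, ih, pow_succ']

lemma hom_sigma (σ : F →* F) (k : ℕ) (S : Set F) (hS : Subgroup.closure S = ⊤)
    (hσ : ∀ s ∈ S, σ s = s ^ k) (ψ : F →* Q) (hψ : ∀ g h, Commute (ψ g) (ψ h)) (g : F) :
    ψ (σ g) = ψ g ^ k := by
  have hg : g ∈ Subgroup.closure S := hS ▸ Subgroup.mem_top g
  induction hg using Subgroup.closure_induction with
  | mem s hs => rw [hσ s hs, map_pow]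
  | one => simp
  | mul x y _ _ hx hy => rw [map_mul, map_mul, map_mul, hx, hy, (hψ x y).mul_pow]
  | inv x _ hx => rw [map_inv, map_inv, map_inv, hx, inv_pow]

end

theorem sigma_LC (σ : F →* F) (k : ℕ) (S : Set F) (hS : Subgroup.closure S = ⊤)
    (hσ : ∀ s ∈ S, σ s = s ^ k) (c : ℕ) {g : F} (hg : g ∈ LC F c) :
    QuotientGroup.mk' (LC F (c + 1)) (σ g) = QuotientGroup.mk' (LC F (c + 1)) g ^ (k ^ (c + 1)) := by
  induction c generalizing g with
  | zero =>
    rw [zero_add, pow_one]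
    exact hom_sigma σ k S hS hσ _ (fun g h =>
      (Subgroup.mem_center_iff.mp (central_of_LC (c := 0) (Subgroup.mem_top h)) _)) g
  | succ c ih =>
    set π := QuotientGroup.mk' (LC F (c + 1 + 1)) with hπ
    have hg' : g ∈ Subgroup.closure
        {x | ∃ p ∈ LC F c, ∃ q ∈ (⊤ : Subgroup F), ⁅p, q⁆ = x} := hg
    clear hg
    induction hg' using Subgroup.closure_induction with
    | mem x hx =>
      obtain ⟨p, hp, q, -, rfl⟩ := hx
      have hc : ∀ q : F, ⁅π p, π q⁆ ∈ Subgroup.center _ := fun q => by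
        rw [← map_commutatorElement]; exact central_of_LC (comm_mem_LC hp q)
      let ψ : F →* (F ⧸ LC F (c + 1 + 1)) := MonoidHom.mk' (fun q => ⁅π p, π q⁆) (fun q q' => by
        rw [map_mul, comm_mul_right _ _ _ (hc q')])
      have h1 : ⁅π p, π (σ q)⁆ = ⁅π p, π q⁆ ^ k :=
        hom_sigma σ k S hS hσ ψ (fun g h => Subgroup.mem_center_iff.mp (hc h) _) q
      have h2 : (p ^ (k ^ (c + 1)))⁻¹ * σ p ∈ LC F (c + 1) := by
        rw [← QuotientGroup.eq]
        have := ih hp
        rw [← map_pow] at this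
        exact this.symm
      have h3 : π (σ p) = π p ^ (k ^ (c + 1)) * π ((p ^ (k ^ (c + 1)))⁻¹ * σ p) := by
        rw [← map_pow, ← map_mul]; congr 1; group
      have h4 : ⁅π ((p ^ (k ^ (c + 1)))⁻¹ * σ p), π (σ q)⁆ = 1 := by
        rw [← map_commutatorElement]
        exact (QuotientGroup.eq_one_iff _).mpr (comm_mem_LC h2 _)
      rw [map_commutatorElement, map_commutatorElement, map_commutatorElement, h3,
        comm_mul_left _ _ _ (by rw [h4]; exact one_mem _), h4, one_mul,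
        comm_pow_left _ _ (hc _), h1, ← pow_mul, ← pow_succ']
    | one => rw [map_one, map_one, one_pow]
    | mul x y hx hy ihx ihy =>
      have : Commute (π x) (π y) := Subgroup.mem_center_iff.mp (central_of_LC (c := c + 1) hy) _
      rw [map_mul, map_mul, map_mul, ihx, ihy, this.mul_pow]
    | inv x _ hx => rw [map_inv, map_inv, map_inv, hx, inv_pow]

end Vale.Agent.P058
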