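import Vale.Agent.P058.Nil
import Vale.Agent.P058.Setup

/-! Positive tuples in the free group, cheap elements. -/

namespace Vale.Agent.P058

open scoped commutatorElement

noncomputable section

set_option linter.unusedSectionVars false

/-- the free group on nonzero reals -/
abbrev FF := FreeGroup {t : ℝ // t ≠ 0}

open Classical in
/-- letters -/
def XX (t : ℝ) : FF := if h : t = 0 then 1 else FreeGroup.of ⟨t, h⟩

lemma XX_zero : XX 0 = 1 := by simp [XX]

lemma closure_XX : Subgroup.closure (Set.range XX) = ⊤ := by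
  rw [eq_top_iff, ← FreeGroup.closure_range_of]
  apply Subgroup.closure_mono
  rintro _ ⟨t, rfl⟩
  exact ⟨t.1, by simp [XX, t.2]⟩

/-- substitution -/
def subst {G : Type*} [Group G] (f : ℝ → G) : FF →* G := FreeGroup.lift fun t => f t.1

lemma subst_XX {G : Type*} [Group G] (f : ℝ → G) (hf : f 0 = 1) (t : ℝ) :
    subst f (XX t) = f t := by
  by_cases h : t = 0
  · subst h; simp [XX_zero, hf]
  · simp [XX, h, subst]

/-- power substitution -/
def sig (k : ℕ) : FF →* FF := subst fun t => XX t ^ k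

lemma sig_XX (k : ℕ) (t : ℝ) : sig k (XX t) = XX t ^ k := subst_XX _ (by simp [XX_zero]) t

/-- scaling substitution -/
def alp (r : ℝ) : FF →* FF := subst fun t => XX (r * t)

lemma alp_XX (r t : ℝ) : alp r (XX t) = XX (r * t) := subst_XX _ (by simp [XX_zero]) t

variable {d : ℕ} {ι : Type*}

/-- positive tuples with their weights -/
inductive Pos (a : ι → Fin d → ℝ) : WW d → (ι → FF) → Prop
  | const (y : FF) : Pos a 0 (fun _ => y)
  | line (u : VV d) : Pos a (wt u) (fun i => XX (ev (a i) u))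
  | mul {γ δ : WW d} {s t : ι → FF} : Pos a γ s → Pos a δ t → Pos a (γ + δ) (s * t)

variable {a : ι → Fin d → ℝ}

namespace Pos

variable {γ δ : WW d} {s t : ι → FF}

lemma cast (h : Pos a γ s) (h1 : γ = δ) (h2 : s = t) : Pos a δ t := h1 ▸ h2 ▸ h

lemma one : Pos a 0 1 := const 1

lemma pow (h : Pos a γ s) (n : ℕ) : Pos a ((n : ℝ) • γ) (s ^ n) := by
  induction n with
  | zero => simpa using one
  | succ n ih => exact (ih.mul h).cast (by push_cast; module) (pow_succ _ _).symm

lemma sigma (h : Pos a γ s) (k : ℕ) : Pos a ((k : ℝ) • γ) (fun i => sig k (s i)) := by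
  induction h with
  | const y => simpa using const (sig k y)
  | line u => exact ((line u).pow k).cast rfl (by ext1 i; simp [sig_XX])
  | mul _ _ ih1 ih2 => exact (ih1.mul ih2).cast (by module) (by ext1 i; simp)

lemma alpha (h : Pos a γ s) (r : ℝ) : Pos a (r ^ 2 • γ) (fun i => alp r (s i)) := by
  induction h with
  | const y => simpa using const (alp r y)
  | line u => exact (line (r • u)).cast (wt_smul _ _) (by ext1 i; simp [alp_XX])
  | mul _ _ ih1 ih2 => exact (ih1.mul ih2).cast (by module) (by ext1 i; simp)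

lemma trace_nonneg (h : Pos a γ s) : 0 ≤ γ.trace := by
  induction h with
  | const y => simp
  | line u => rw [trace_wt]; exact nsq_nonneg u
  | mul _ _ ih1 ih2 => rw [Matrix.trace_add]; positivity

lemma list (l : List (VV d)) :
    Pos a (l.map wt).sum (fun i => (l.map fun u => XX (ev (a i) u)).prod) := by
  induction l with
  | nil => simpa using const 1
  | cons u l ih => exact ((line u).mul ih).cast (by simp) (by ext1 i; simp)

end Pos

lemma exists_pos_sum {κ : Type*} (S : Finset κ) (f : κ → WW d) (h : ∀ k ∈ S, ∃ t, Pos a (f k) t) :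
    ∃ t, Pos a (∑ k ∈ S, f k) t := by
  classical
  induction S using Finset.induction_on with
  | empty => exact ⟨1, by simpa using Pos.one⟩
  | insert k S hk ih =>
    obtain ⟨s, hs⟩ := h k (Finset.mem_insert_self _ _)
    obtain ⟨t, ht⟩ := ih fun k' hk' => h k' (Finset.mem_insert_of_mem hk')
    exact ⟨s * t, by rw [Finset.sum_insert hk]; exact hs.mul ht⟩

lemma exists_pos_smul {γ : WW d} (h : ∃ t, Pos a γ t) {r : ℝ} (hr : 0 ≤ r) :
    ∃ t, Pos a (r • γ) t := by
  obtain ⟨t, ht⟩ := h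
  exact ⟨_, (ht.alpha √r).cast (by rw [Real.sq_sqrt hr]) rfl⟩

lemma exists_pos_scalar {r : ℝ} (hr : 0 ≤ r) : ∃ t, Pos a (r • (1 : WW d)) t := by
  refine exists_pos_smul ?_ hr
  rw [← sum_wt_ee]
  exact exists_pos_sum _ _ fun j _ => ⟨_, Pos.line _⟩

lemma lagrange (u : VV d) : nsq u • (1 : WW d) - wt u =
    (1 / 2 : ℝ) • ∑ j, ∑ k, wt (u (some j) • ee k - u (some k) • ee j) := by
  ext p q
  simp only [wt, wt2, nsq, Matrix.sub_apply, Matrix.smul_apply, Matrix.sum_apply, Matrix.of_apply,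
    Pi.sub_apply, Pi.smul_apply, ee_some, smul_eq_mul, Matrix.one_apply, mul_ite, mul_one, mul_zero,
    sub_mul, mul_sub, ite_mul, zero_mul, Finset.sum_sub_distrib]
  by_cases h : p = q
  · subst h
    simp [Finset.sum_ite_eq, sq]
    ring
  · simp [h, Finset.sum_ite_eq]
    ring

lemma Pos.fill {γ : WW d} {s : ι → FF} (h : Pos a γ s) :
    ∃ t, Pos a (γ.trace • (1 : WW d) - γ) t := by
  induction h with
  | const y => exact ⟨1, by simpa using Pos.one⟩
  | line u =>
    rw [trace_wt, lagrange]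
    exact exists_pos_smul (exists_pos_sum _ _ fun j _ => exists_pos_sum _ _ fun k _ =>
      ⟨_, Pos.line _⟩) (by norm_num)
  | mul _ _ ih1 ih2 =>
    obtain ⟨t1, h1⟩ := ih1
    obtain ⟨t2, h2⟩ := ih2
    exact ⟨_, (h1.mul h2).cast (by rw [Matrix.trace_add]; module) rfl⟩

/-- elements cheaply realised at `i` while trivial at `j` -/
def YY (a : ι → Fin d → ℝ) (i j : ι) (g : FF) : Prop :=
  ∀ ε : ℝ, 0 < ε → ∃ γ z, Pos a γ z ∧ γ.trace ≤ ε ∧ z i = g ∧ z j = 1

lemma YY.mul {i j : ι} {g h : FF} (hg : YY a i j g) (hh : YY a i j h) : YY a i j (g * h) := by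
  intro ε hε
  obtain ⟨γ, z, h1, h2, h3, h4⟩ := hg (ε / 2) (by positivity)
  obtain ⟨γ', z', h1', h2', h3', h4'⟩ := hh (ε / 2) (by positivity)
  exact ⟨_, _, h1.mul h1', by rw [Matrix.trace_add]; linarith, by simp [h3, h3'], by simp [h4, h4']⟩

lemma YY.path {i j : ι} (hij : a i ≠ a j) (s t : ℝ) : YY a i j (XX s * (XX t)⁻¹) := by
  obtain ⟨u, hi, hj⟩ := exists_sep hij
  intro ε hε
  have key : ∀ (h : ℝ) (l : ℕ), ∃ γ z, Pos a γ z ∧ γ.trace ≤ l * (h ^ 2 * nsq u) ∧
      z i = XX (t + l * h) * (XX t)⁻¹ ∧ z j = 1 := by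
    intro h l
    induction l with
    | zero => exact ⟨0, 1, Pos.one, by simp, by simp, rfl⟩
    | succ l ih =>
      obtain ⟨γ, z, h1, h2, h3, h4⟩ := ih
      refine ⟨_, _, ((Pos.line (h • u + cst d (t + l * h))).mul
        (Pos.const (XX (t + l * h))⁻¹)).mul h1, ?_, ?_, ?_⟩
      · rw [Matrix.trace_add, add_zero, trace_wt, nsq_add_cst, nsq_smul]; push_cast; linarith
      · simp only [Pi.mul_apply, map_add, map_smul, hi, ev_cst, h3, smul_eq_mul]
        rw [show h * 1 + (t + l * h) = t + ((l + 1 : ℕ) : ℝ) * h by push_cast; ring]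
        group
      · simp [hj, h4]
  obtain ⟨M, hM⟩ := exists_nat_gt ((s - t) ^ 2 * nsq u / ε)
  have h0 := nsq_nonneg u
  have hM0 : (0 : ℝ) < M := lt_of_le_of_lt (by positivity) hM
  obtain ⟨γ, z, h1, h2, h3, h4⟩ := key ((s - t) / M) M
  refine ⟨γ, z, h1, h2.trans ?_, ?_, h4⟩
  · rw [div_lt_iff₀ hε] at hM
    have : (M : ℝ) * (((s - t) / M) ^ 2 * nsq u) = (s - t) ^ 2 * nsq u / M := by field_simp
    rw [this, div_le_iff₀ hM0]; linarith
  · rw [h3]; congr 2; field_simp; ring

lemma YY.all {i j : ι} (hij : a i ≠ a j) (g : FF) : YY a i j g := by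
  have hg : g ∈ Subgroup.closure (Set.range XX) := closure_XX ▸ Subgroup.mem_top g
  suffices YY a i j g ∧ YY a i j g⁻¹ from this.1
  induction hg using Subgroup.closure_induction with
  | mem s hs =>
    obtain ⟨t, rfl⟩ := hs
    exact ⟨by simpa [XX_zero] using YY.path hij t 0, by simpa [XX_zero] using YY.path hij 0 t⟩
  | one => simpa using YY.path hij 0 0
  | mul x y _ _ hx hy => exact ⟨hx.1.mul hy.1, by rw [mul_inv_rev]; exact hy.2.mul hx.2⟩
  | inv x _ hx => exact ⟨hx.2, by simpa using hx.1⟩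

lemma cheap_pair {i j : ι} (hij : a i ≠ a j) (g g' : FF) {ε : ℝ} (hε : 0 < ε) :
    ∃ γ z, Pos a γ z ∧ γ.trace ≤ ε ∧ z i = g ∧ z j = g' := by
  obtain ⟨γ, z, h1, h2, h3, h4⟩ := YY.all hij (g * g'⁻¹) ε hε
  exact ⟨_, _, h1.mul (Pos.const g'), by simpa using h2, by simp [h3], by simp [h4]⟩

/-- quotients of cheap positive tuples of equal weight -/
def ZP (a : ι → Fin d → ℝ) (S : Finset ι) (i : ι) (g : FF) : Prop :=
  ∀ ε : ℝ, 0 < ε → ∃ γ p m, Pos a γ p ∧ Pos a γ m ∧ γ.trace ≤ ε ∧ p i = g * m i ∧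
    ∀ j ∈ S, p j = m j

lemma ZP.conj {S : Finset ι} {i : ι} {g : FF} (hg : ZP a S i g) (h : FF) :
    ZP a S i (h * g * h⁻¹) := by
  intro ε hε
  obtain ⟨γ, p, m, h1, h2, h3, h4, h5⟩ := hg ε hε
  refine ⟨_, _, _, (Pos.const h).mul h1, (Pos.const h).mul h2, by simpa using h3, ?_, ?_⟩
  · simp only [Pi.mul_apply, h4]; group
  · intro j hj; simp only [Pi.mul_apply, h5 j hj]

/-- the subgroup of such elements -/
def ZZ (a : ι → Fin d → ℝ) (S : Finset ι) (i : ι) : Subgroup FF where
  carrier := {g | ZP a S i g}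
  one_mem' := fun ε hε => ⟨0, 1, 1, Pos.one, Pos.one, by simpa using hε.le, by simp, by simp⟩
  inv_mem' := by
    intro g hg ε hε
    obtain ⟨γ, p, m, h1, h2, h3, h4, h5⟩ := hg ε hε
    exact ⟨γ, m, p, h2, h1, h3, by rw [h4]; group, fun j hj => (h5 j hj).symm⟩
  mul_mem' := by
    intro g g' hg hg' ε hε
    obtain ⟨γ, p, m, h1, h2, h3, h4, h5⟩ := hg (ε / 2) (by positivity)
    obtain ⟨γ', p', m', h1', h2', h3', h4', h5'⟩ := ZP.conj hg' (m i)⁻¹ (ε / 2) (by positivity)
    refine ⟨_, _, _, h1.mul h1', h2.mul h2', by rw [Matrix.trace_add]; linarith, ?_, ?_⟩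
    · simp only [Pi.mul_apply, h4, h4']; group
    · intro j hj; simp only [Pi.mul_apply, h5 j hj, h5' j hj]

variable [DecidableEq ι]

lemma ZP.comm {S : Finset ι} {i j : ι} (hij : a i ≠ a j) {g : FF} (hg : ZP a S i g) (c : FF) :
    ZP a (insert j S) i ⁅g, c⁆ := by
  intro ε hε
  obtain ⟨γ, p, m, h1, h2, h3, h4, h5⟩ := hg (ε / 3) (by positivity)
  obtain ⟨ζ, z, k1, k2, k3, k4⟩ := cheap_pair hij ((m i)⁻¹ * c) (m j)⁻¹ (ε := ε / 3) (by positivity)
  refine ⟨_, _, _, (h1.mul k1).mul h2, (h2.mul k1).mul h1, ?_, ?_, ?_⟩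
  · rw [Matrix.trace_add, Matrix.trace_add]; linarith
  · simp only [Pi.mul_apply, h4, k3, commutatorElement_def]; group
  · intro l hl
    rcases Finset.mem_insert.mp hl with rfl | hl
    · simp only [Pi.mul_apply, k4]; group
    · simp only [Pi.mul_apply, h5 l hl]

lemma LC_le_ZZ (ha : Function.Injective a) (i : ι) (S : Finset ι) (hi : i ∉ S) :
    LC FF S.card ≤ ZZ a S i := by
  induction S using Finset.induction_on with
  | empty =>
    intro g _ ε hε
    exact ⟨0, _, 1, Pos.const g, Pos.one, by simpa using hε.le, by simp, by simp⟩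
  | insert j S hj ih =>
    have hiS : i ∉ S := fun h => hi (Finset.mem_insert_of_mem h)
    have hij : a i ≠ a j := fun h => hi (by rw [ha h]; exact Finset.mem_insert_self _ _)
    rw [Finset.card_insert_of_notMem hj, LC, Subgroup.lowerCentralSeries_succ,
      Subgroup.commutator_le]
    intro g hg c _
    exact ZP.comm hij (ih hiS hg) c

variable [Fintype ι]

lemma cheap_tuple (ha : Function.Injective a) (S : Finset ι) :
    ∀ (ζ : ι → FF), (∀ i, ζ i ∈ LC FF (Fintype.card ι)) → (∀ i ∉ S, ζ i = 1) →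
      ∀ ε : ℝ, 0 < ε → ∃ γ p m, Pos a γ p ∧ Pos a γ m ∧ γ.trace ≤ ε ∧ p = ζ * m := by
  induction S using Finset.induction_on with
  | empty =>
    intro ζ _ h ε hε
    refine ⟨0, 1, 1, Pos.one, Pos.one, by simpa using hε.le, ?_⟩
    ext1 i; simp [h i]
  | insert i S hi ih =>
    intro ζ h1 h2 ε hε
    have h3 : ζ i ∈ ZZ a (Finset.univ.erase i) i :=
      LC_le_ZZ ha i _ (Finset.notMem_erase _ _)
        (Subgroup.lowerCentralSeries_antitone ⊤ (Finset.card_le_univ _) (h1 i))
    obtain ⟨γ, p, m, k1, k2, k3, k4, k5⟩ := h3 (ε / 2) (by positivity)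
    obtain ⟨γ', p', m', k1', k2', k3', k4'⟩ := ih (p⁻¹ * ζ * m) (fun l => by
      by_cases hl : l = i
      · subst hl; simp only [Pi.mul_apply, Pi.inv_apply, k4]
        have : (ζ l * m l)⁻¹ * ζ l * m l = 1 := by group
        rw [this]; exact one_mem _
      · simp only [Pi.mul_apply, Pi.inv_apply, k5 l (by simp [hl])]
        have := (LC_normal (F := FF) (Fintype.card ι)).conj_mem _ (h1 l) (m l)⁻¹
        simpa using this) (fun l hl => by
      by_cases hli : l = i
      · subst hli; simp only [Pi.mul_apply, Pi.inv_apply, k4]; group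
      · simp only [Pi.mul_apply, Pi.inv_apply, k5 l (by simp [hli]), h2 l (by simp [hli, hl])]
        group) (ε / 2) (by positivity)
    refine ⟨_, _, _, k1.mul k1', k2.mul k2', by rw [Matrix.trace_add]; linarith, ?_⟩
    rw [k4']; group

end

end Vale.Agent.P058
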