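import Vale.Agent.P058.Descent

/-! Subtransitive sets are Ramsey. -/

namespace Vale.Agent.P058

open scoped TensorProduct

noncomputable section

variable {d n : ℕ}

lemma IsRamsey.of_copy {A : Finset (Euc d)} {X : Finset (Euc n)} (hX : IsRamsey X)
    {B : Set (Euc n)} (hB : B ⊆ X) (h : IsCopy A B) : IsRamsey A := by
  obtain ⟨f, hf, rfl⟩ := h
  intro r hr
  obtain ⟨D, hD, h⟩ := hX r hr
  refine ⟨D, hD, fun c => ?_⟩
  obtain ⟨_, ⟨g, hg, rfl⟩, k, hk⟩ := h c
  refine ⟨(g ∘ f) '' A, ⟨g ∘ f, fun x hx y hy => ?_, rfl⟩, k, ?_⟩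
  · rw [Function.comp_apply, Function.comp_apply, hg _ (hB ⟨x, hx, rfl⟩) _ (hB ⟨y, hy, rfl⟩),
      hf x hx y hy]
  · rintro _ ⟨x, hx, rfl⟩
    exact hk _ ⟨f x, hB ⟨x, hx, rfl⟩, rfl⟩

/-- distance preserving permutations of a finite set -/
def symGrp (X : Finset (Euc n)) : Subgroup (Equiv.Perm X) where
  carrier := {π | ∀ x y : X, dist (π x : Euc n) (π y) = dist (x : Euc n) y}
  one_mem' := fun _ _ => rfl
  mul_mem' := fun {π σ} hπ hσ x y => by
    rw [Equiv.Perm.mul_apply, Equiv.Perm.mul_apply, hπ, hσ]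
  inv_mem' := fun {π} hπ x y => by
    rw [← hπ]; simp

lemma symGrp_trans {X : Finset (Euc n)} (hX : IsTransitive X) (x y : X) :
    ∃ σ : symGrp X, σ.1 x = y := by
  obtain ⟨g, hg, hxy⟩ := hX x x.2 y y.2
  have hmem : ∀ z, z ∈ X ↔ g.toEquiv z ∈ X := by
    intro z
    constructor
    · intro hz
      have : g z ∈ g '' (X : Set (Euc n)) := ⟨z, hz, rfl⟩
      rwa [hg] at this
    · intro hz
      have : g z ∈ g '' (X : Set (Euc n)) := by rw [hg]; exact hz
      obtain ⟨w, hw, e⟩ := this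
      rwa [← g.injective e]
  exact ⟨⟨g.toEquiv.subtypeEquiv hmem, fun a b => g.dist_eq a b⟩, Subtype.ext hxy⟩

/-- constants as a rational-linear map -/
def cstQ (d : ℕ) : ℝ →ₗ[ℚ] VV d :=
  AddMonoidHom.toRatLinearMap (AddMonoidHom.mk' (cst d) cst_add)

lemma ev_cstT (x : Fin d → ℝ) (z : ℝ ⊗[ℚ] ℝ) :
    TensorProduct.map (evQ x) (evQ x) (TensorProduct.map (cstQ d) (cstQ d) z) = z := by
  induction z using TensorProduct.induction_on with
  | zero => simp
  | tmul s t => simp [cstQ, evQ]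
  | add x y hx hy => simp only [map_add, hx, hy]

lemma wtT_cstT (z : ℝ ⊗[ℚ] ℝ) : wtT (TensorProduct.map (cstQ d) (cstQ d) z) = 0 := by
  induction z using TensorProduct.induction_on with
  | zero => simp
  | tmul s t => ext j k; simp [cstQ, wtT_tmul, wt2]
  | add x y hx hy => simp only [map_add, hx, hy, add_zero]

lemma critR_of_transitive {X : Finset (Euc n)} (hne : X.Nonempty) (hX : IsTransitive X) :
    CritR (pts X) := by
  classical
  have : Nonempty X := hne.to_subtype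
  have : Fintype (symGrp X) := Fintype.ofFinite _
  have h1 := fun π : symGrp X => copy_lines (pts X) (fun i k => (π.1 i : Euc n) k)
    fun i j => sum_sq_of_dist (π.2 i j)
  choose Θ hΘ1 hΘ2 using h1
  obtain ⟨x₀⟩ := ‹Nonempty X›
  let F : X → ℝ ⊗[ℚ] ℝ := fun y => ∑ k, (y : Euc n) k ⊗ₜ[ℚ] (y : Euc n) k
  have h2 : ∀ i, ∑ π : symGrp X, F (π.1 i) = ∑ π : symGrp X, F (π.1 x₀) := by
    intro i
    obtain ⟨σ, rfl⟩ := symGrp_trans hX x₀ i
    exact Fintype.sum_equiv (Equiv.mulRight σ) _ _ fun π => rfl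
  have hc : (Fintype.card (symGrp X) : ℚ) ≠ 0 := by exact_mod_cast Fintype.card_ne_zero
  refine ⟨(Fintype.card (symGrp X) : ℚ)⁻¹ • (∑ π, Θ π -
    TensorProduct.map (cstQ n) (cstQ n) (∑ π : symGrp X, F (π.1 x₀))), fun i => ?_, ?_⟩
  · rw [map_smul, map_sub, ev_cstT, map_sum, ← h2 i]
    simp only [hΘ1, F, sub_self, smul_zero]
  · rw [map_smul, map_sub, wtT_cstT, map_sum]
    simp only [hΘ2, Finset.sum_const, Finset.card_univ, sub_zero]
    rw [← Nat.cast_smul_eq_nsmul ℚ, smul_smul, inv_mul_cancel₀ hc, one_smul]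

theorem ramsey_of_subtransitive (A : Finset (Euc d)) (hA : A.Nonempty) (h : IsSubtransitive A) :
    IsRamsey A := by
  obtain ⟨n, X, hX, B, hB, hAB⟩ := h
  have hne : X.Nonempty := by
    obtain ⟨f, -, rfl⟩ := hAB
    obtain ⟨x, hx⟩ := hA
    exact ⟨f x, hB ⟨x, hx, rfl⟩⟩
  exact (ramsey_of_critR X (critR_of_transitive hne hX)).of_copy hB hAB

/-- A spherical set in which the complement of each point is covered by two hyperplanes missing
the point satisfies the criterion. -/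
lemma critR_of_two_planes {ι : Type*} [Fintype ι] [DecidableEq ι] (a : ι → Fin d → ℝ)
    (z : Fin d → ℝ) (R : ℝ) (hz : ∀ i, ∑ k, (a i k - z k) ^ 2 = R)
    (h : ∀ i, ∃ u v : VV d, ev (a i) u = 1 ∧ ev (a i) v = 1 ∧
      ∀ j, j ≠ i → ev (a j) u = 0 ∨ ev (a j) v = 0) : CritR a := by
  choose u v hu hv huv using h
  let sm : VV d → ℝ →ₗ[ℚ] VV d := fun w => (LinearMap.toSpanSingleton ℝ (VV d) w).restrictScalars ℚ
  have hsm : ∀ w t, sm w t = t • w := fun _ _ => rfl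
  let w : Fin d → VV d := fun k => ee k + cst d (-z k)
  let Θ₀ : VV d ⊗[ℚ] VV d := ∑ k, w k ⊗ₜ[ℚ] w k - cst d R ⊗ₜ[ℚ] cst d 1
  let r : ι → ℝ ⊗[ℚ] ℝ := fun i => TensorProduct.map (evQ (a i)) (evQ (a i)) Θ₀
  have hr : ∀ i, Algebra.TensorProduct.lmul' ℚ (r i) = 0 := fun i => by
    simp only [r, Θ₀, map_sub, map_sum, TensorProduct.map_tmul,
      Algebra.TensorProduct.lmul'_apply_tmul, evQ, LinearMap.restrictScalars_apply, w, map_add,
      ev_ee, ev_cst, mul_one]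
    rw [← hz i, sub_eq_zero]
    exact Finset.sum_congr rfl fun k _ => by ring
  have k1 : ∀ i j (y : ℝ ⊗[ℚ] ℝ), TensorProduct.map (evQ (a j)) (evQ (a j))
      (TensorProduct.map (sm (u i)) (sm (v i)) y) = if j = i then y else 0 := by
    intro i j y
    induction y using TensorProduct.induction_on with
    | zero => simp
    | tmul s t =>
      simp only [TensorProduct.map_tmul, hsm, evQ, LinearMap.restrictScalars_apply, map_smul,
        smul_eq_mul]
      split_ifs with hji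
      · subst hji; simp [hu, hv]
      · rcases huv i j hji with h | h <;> simp [h]
    | add x y hx hy => simp only [map_add, hx, hy]; split_ifs <;> simp
  have k2 : ∀ i (y : ℝ ⊗[ℚ] ℝ), wtT (TensorProduct.map (sm (u i)) (sm (v i)) y) =
      Algebra.TensorProduct.lmul' ℚ y • wt2 (u i) (v i) := by
    intro i y
    induction y using TensorProduct.induction_on with
    | zero => simp
    | tmul s t => ext j k; simp [hsm, wtT_tmul, wt2]; ring
    | add x y hx hy => simp only [map_add, hx, hy, add_smul]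
  refine ⟨Θ₀ - ∑ i, TensorProduct.map (sm (u i)) (sm (v i)) (r i), fun j => ?_, ?_⟩
  · simp [map_sub, map_sum, k1, r]
  · simp only [map_sub, map_sum, k2, hr, zero_smul, Finset.sum_const_zero, sub_zero, Θ₀, wtT_tmul]
    have : ∀ k, wt2 (w k) (w k) = wt (ee k) := fun k => wt_add_cst _ _
    simp only [this, sum_wt_ee]
    ext j k; simp [wt2]

lemma line_two {x p q z : Fin 2 → ℝ} {R : ℝ} (hx : ∑ k, (x k - z k) ^ 2 = R)
    (hp : ∑ k, (p k - z k) ^ 2 = R) (hq : ∑ k, (q k - z k) ^ 2 = R) (hpx : p ≠ x) (hqx : q ≠ x) :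
    ∃ u : VV 2, ev x u = 1 ∧ ev p u = 0 ∧ ev q u = 0 := by
  by_cases hpq : p = q
  · subst hpq
    obtain ⟨u, h1, h2⟩ := exists_sep hpx.symm
    exact ⟨u, h1, h2, h2⟩
  simp only [Fin.sum_univ_two] at hx hp hq
  have hne : ∀ {p q : Fin 2 → ℝ}, p ≠ q → 0 < (p 0 - q 0) ^ 2 + (p 1 - q 1) ^ 2 := by
    intro p q h
    by_contra hc
    apply h
    ext k
    fin_cases k
    · show p 0 = q 0; nlinarith [sq_nonneg (p 0 - q 0), sq_nonneg (p 1 - q 1)]
    · show p 1 = q 1; nlinarith [sq_nonneg (p 0 - q 0), sq_nonneg (p 1 - q 1)]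
  set δ := (x 0 - p 0) * (q 1 - p 1) - (x 1 - p 1) * (q 0 - p 0) with hδ
  have hδ0 : δ ≠ 0 := by
    intro h0
    have h1 := hne hpq
    have h2 := hne hpx
    have h3 := hne hqx
    set u0 := x 0 - p 0
    set u1 := x 1 - p 1
    set v0 := q 0 - p 0
    set v1 := q 1 - p 1
    have e1 : u0 ^ 2 + u1 ^ 2 + 2 * (u0 * (p 0 - z 0) + u1 * (p 1 - z 1)) = 0 := by
      simp only [u0, u1]; linear_combination hx - hp
    have e2 : v0 ^ 2 + v1 ^ 2 + 2 * (v0 * (p 0 - z 0) + v1 * (p 1 - z 1)) = 0 := by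
      simp only [v0, v1]; linear_combination hq - hp
    have h0' : u0 * v1 - u1 * v0 = 0 := h0
    have e3 : v0 * (u0 ^ 2 + u1 ^ 2) = u0 * (v0 ^ 2 + v1 ^ 2) := by
      linear_combination v0 * e1 - u0 * e2 + 2 * (p 1 - z 1) * h0'
    have e4 : v1 * (u0 ^ 2 + u1 ^ 2) = u1 * (v0 ^ 2 + v1 ^ 2) := by
      linear_combination v1 * e1 - u1 * e2 - 2 * (p 0 - z 0) * h0'
    have h1' : 0 < v0 ^ 2 + v1 ^ 2 := by simp only [v0, v1]; linarith
    have h2' : 0 < u0 ^ 2 + u1 ^ 2 := by simp only [u0, u1]; linarith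
    have e5 : u0 ^ 2 + u1 ^ 2 = u0 * v0 + u1 * v1 := by
      apply mul_left_cancel₀ h1'.ne'
      linear_combination v0 * e3 + v1 * e4
    have e6 : u0 * v0 + u1 * v1 = v0 ^ 2 + v1 ^ 2 := by
      apply mul_left_cancel₀ h2'.ne'
      linear_combination u0 * e3 + u1 * e4
    have e7 : (q 0 - x 0) ^ 2 + (q 1 - x 1) ^ 2 = (v0 - u0) ^ 2 + (v1 - u1) ^ 2 := by
      simp only [u0, u1, v0, v1]; ring
    nlinarith
  refine ⟨δ⁻¹ • aff p 0 ![q 1 - p 1, -(q 0 - p 0)], ?_, ?_, ?_⟩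
  · rw [map_smul, ev_aff, Fin.sum_univ_two]; simp; field_simp; rw [hδ]; ring
  · rw [map_smul, ev_aff, Fin.sum_univ_two]; simp
  · rw [map_smul, ev_aff, Fin.sum_univ_two]; simp; right; ring

end

end Vale.Agent.P058
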