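import Vale.Agent.P058.Beta
import Vale.Agent.P058.Defs

/-! Sufficiency of the tensor criterion over the reals. -/

namespace Vale.Agent.P058

noncomputable section

variable {d : ℕ}

/-- coordinates of the points of a finite set -/
def pts (A : Finset (Euc d)) : A → Fin d → ℝ := fun x j => x.1 j

lemma pts_inj (A : Finset (Euc d)) : Function.Injective (pts A) := by
  intro x y h
  apply Subtype.ext
  ext j
  exact congrFun h j

lemma sum_getD {α : Type*} (g h : α → ℝ) (l : List α) :
    ∑ k : Fin (l.length + 1), ((l.map g).getD k 0 - (l.map h).getD k 0) ^ 2 =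
      (l.map fun u => (g u - h u) ^ 2).sum := by
  induction l with
  | nil => simp
  | cons u l ih =>
    rw [List.length_cons, Fin.sum_univ_succ]
    simp only [List.map_cons, List.sum_cons, Fin.val_zero, List.getD_cons_zero, Fin.val_succ,
      List.getD_cons_succ, ih]

lemma sum_ev_sq (x y : Fin d → ℝ) (l : List (VV d)) :
    (l.map fun u => (ev x u - ev y u) ^ 2).sum =
      ∑ j, ∑ k, (l.map wt).sum j k * (x j - y j) * (x k - y k) := by
  induction l with
  | nil => simp
  | cons u l ih =>
    simp only [List.map_cons, List.sum_cons, ih, Matrix.add_apply, add_mul, Finset.sum_add_distrib]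
    congr 1
    have : ev x u - ev y u = ∑ j, u (some j) * (x j - y j) := by
      simp only [ev_apply, mul_sub, Finset.sum_sub_distrib]; ring
    rw [this, sq, Finset.sum_mul_sum]
    refine Finset.sum_congr rfl fun j _ => Finset.sum_congr rfl fun k _ => ?_
    simp only [wt, wt2, Matrix.of_apply]; ring

theorem ramsey_of_critR (A : Finset (Euc d)) (h : CritR (pts A)) : IsRamsey A := by
  classical
  intro r _
  by_contra hc
  push Not at hc
  choose c hc using fun D : ℕ => hc (D + 1) (Nat.succ_le_succ (Nat.zero_le D))
  let pt : (D : ℕ) → List ℝ → Euc (D + 1) := fun D l => WithLp.toLp 2 fun k => l.getD k 0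
  obtain ⟨l, hl, k, hk⟩ := word_ramsey (pts_inj A) h fun l => c l.length (pt l.length l)
  let f : Euc d → Euc (l.length + 1) := fun x => pt l.length (l.map (ev fun j => x j))
  obtain ⟨y, ⟨x, hx, rfl⟩, hy⟩ := hc l.length (f '' A) ⟨f, fun x _ y _ => by
    rw [EuclideanSpace.dist_eq, EuclideanSpace.dist_eq]
    congr 1
    simp only [f, pt, Real.dist_eq, sq_abs]
    rw [sum_getD, sum_ev_sq, hl]
    simp [Matrix.one_apply, sq], rfl⟩ k
  apply hy
  have := hk ⟨x, hx⟩
  have e : ∀ (m n : ℕ) (w : List ℝ), m = n → c m (pt m w) = c n (pt n w) := by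
    rintro m n w rfl; rfl
  rw [e _ _ _ (List.length_map _)] at this
  exact this

end

end Vale.Agent.P058
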