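import Vale.Agent.P058.Pos
import Vale.Agent.P058.Abel2

/-! Two-weight tuples and the Hales-Jewett step. -/

namespace Vale.Agent.P058

noncomputable section

set_option linter.unusedSectionVars false

variable {d : ℕ} {ι : Type*} [Fintype ι] [DecidableEq ι] {a : ι → Fin d → ℝ}

/-- relation modulo a term of the lower central series -/
def TW (a : ι → Fin d → ℝ) (c : ℕ) (η : ℝ) : Prop :=
  ∃ (lam : ℝ) (γ : WW d) (P N : ι → FF), 0 < lam ∧ Pos a (γ + lam • 1) P ∧ Pos a γ N ∧
    γ.trace ≤ η * lam ∧ ∀ i, (N i)⁻¹ * P i ∈ LC FF c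

lemma trace_list (l : List (VV d)) : (l.map wt).sum.trace = cost (l : Multiset (VV d)) := by
  induction l with
  | nil => simp [cost]
  | cons u l ih =>
    simp only [List.map_cons, List.sum_cons, Matrix.trace_add, trace_wt, ih]
    simp [cost]

lemma TW_one (ha : Function.Injective a) (h : CritR a) (η : ℝ) (hη : 0 < η) : TW a 1 η := by
  obtain ⟨P, N, m, hm, h1, h2, h3⟩ := abelian_relation ha h η hη
  have e : ∀ P : Multiset (VV d), (P.toList.map wt).sum = (P.map wt).sum := fun P => by
    rw [← Multiset.sum_coe, ← Multiset.map_coe, Multiset.coe_toList]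
  refine ⟨m, _, _, _, by exact_mod_cast hm, (Pos.list P.toList).cast ?_ rfl, Pos.list N.toList,
    ?_, fun i => ?_⟩
  · rw [e, e, h2]
  · rw [trace_list, Multiset.coe_toList]; linarith
  · have key : ∀ P : Multiset (VV d),
        Abelianization.of (P.toList.map fun u => XX (ev (a i) u)).prod =
        ((P.map (ev (a i))).map fun t => Abelianization.of (XX t)).prod := fun P => by
      rw [map_list_prod, List.map_map, ← Multiset.prod_coe, ← Multiset.map_coe, Multiset.coe_toList,
        Multiset.map_map]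
      rfl
    rw [LC, Subgroup.top_lowerCentralSeries_one, ← Abelianization.ker_of, MonoidHom.mem_ker, map_mul,
      map_inv, key, key, h1, inv_mul_cancel]

lemma TW_succ (c : ℕ) (h : ∀ η, 0 < η → TW a (c + 1) η) (η : ℝ) (hη : 0 < η) :
    TW a (c + 2) η := by
  obtain ⟨lam, γ, P, N, hl, h1, h2, h3, h4⟩ := h (η / 6) (by positivity)
  obtain ⟨k, hk⟩ := exists_nat_gt (2 + 2 * d / η)
  have hd : (0 : ℝ) ≤ 2 * d / η := by positivity
  have hk2 : (2 : ℝ) < k := by linarith
  set K : ℕ := k ^ (c + 2) with hK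
  have hKk : (k : ℝ) ^ 2 ≤ K := by
    rw [hK]; push_cast
    exact pow_le_pow_right₀ (by linarith) (by omega)
  have hpos : (0 : ℝ) < K - k := by nlinarith
  refine ⟨(K - k) * lam, (K : ℝ) • γ + (k : ℝ) • (γ + lam • 1),
    P ^ K * fun i => sig k (N i), N ^ K * fun i => sig k (P i), by positivity,
    ((h1.pow K).mul (h2.sigma k)).cast (by module) rfl, (h2.pow K).mul (h1.sigma k), ?_, fun i => ?_⟩
  · simp only [Matrix.trace_add, Matrix.trace_smul, Matrix.trace_one, smul_eq_mul, Fintype.card_fin]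
    have h5 : (2 * d : ℝ) ≤ η * (k - 1) := by
      have : 2 * d / η < k - 1 := by linarith
      rw [div_lt_iff₀ hη] at this; linarith
    have h6 : (K : ℝ) + k ≤ 3 * (K - k) := by nlinarith
    have h7 : (k : ℝ) * (k - 1) ≤ K - k := by nlinarith
    have h8 : ((K : ℝ) + k) * γ.trace ≤ 3 * (K - k) * (η / 6 * lam) :=
      mul_le_mul h6 h3 h2.trace_nonneg (by positivity)
    have h9 : (k : ℝ) * d ≤ η / 2 * (K - k) := by nlinarith
    nlinarith [mul_le_mul_of_nonneg_right h9 hl.le]
  · rw [← QuotientGroup.eq]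
    change QuotientGroup.mk' (LC FF (c + 2)) _ = QuotientGroup.mk' (LC FF (c + 2)) _
    set π := QuotientGroup.mk' (LC FF (c + 2)) with hπ
    have hz := central_of_LC (h4 i)
    have hs := sigma_LC (sig k) k _ closure_XX (by rintro _ ⟨t, rfl⟩; exact sig_XX k t) _ (h4 i)
    change π _ ∈ _ at hz
    change π _ = π _ ^ K at hs
    set z := π ((N i)⁻¹ * P i) with hzdef
    have e1 : π (P i) = π (N i) * z := by rw [hzdef, ← map_mul]; congr 1; group
    have e2 : π (sig k (P i)) = π (sig k (N i)) * z ^ K := by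
      rw [← hs, ← map_mul, ← map_mul]; congr 2; group
    have hc : ∀ x, Commute x z := fun x => Subgroup.mem_center_iff.mp hz x
    simp only [Pi.mul_apply, Pi.pow_apply, map_mul, map_pow]
    rw [e1, e2, (hc _).mul_pow, mul_assoc, ((hc _).pow_right K).eq]

lemma TW_all (ha : Function.Injective a) (h : CritR a) (c : ℕ) :
    ∀ η, 0 < η → TW a (c + 1) η := by
  induction c with
  | zero => exact TW_one ha h
  | succ c ih => exact TW_succ c ih

theorem two_weight (ha : Function.Injective a) (h : CritR a) {lam ε : ℝ} (hl : 0 < lam)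
    (hε : 0 < ε) : ∃ γ s, Pos a γ s ∧ Pos a (γ + lam • 1) s ∧ γ.trace ≤ ε := by
  obtain ⟨μ, γ, P, N, hμ, h1, h2, h3, h4⟩ := TW_all ha h (Fintype.card ι) (ε / lam / 2)
    (by positivity)
  obtain ⟨γ', p, m, k1, k2, k3, k4⟩ := cheap_tuple ha Finset.univ (N⁻¹ * P)
    (fun i => Subgroup.lowerCentralSeries_antitone ⊤ (Nat.le_succ _) (h4 i)) (by simp)
    (ε / lam / 2 * μ) (by positivity)
  have e : N * p = P * m := by rw [k4]; group
  have hr : √(lam / μ) ^ 2 = lam / μ := Real.sq_sqrt (by positivity)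
  refine ⟨_, _, (h2.mul k1).alpha √(lam / μ), ((h1.mul k2).alpha √(lam / μ)).cast ?_ (by rw [e]), ?_⟩
  · rw [hr]
    have : lam = lam / μ * μ := by field_simp
    conv_rhs => rw [this]
    rw [← this]
    conv_rhs => enter [2]; rw [this]
    module
  · rw [hr, Matrix.trace_smul, Matrix.trace_add, smul_eq_mul]
    have : γ.trace + γ'.trace ≤ ε / lam * μ := by linarith
    calc _ ≤ lam / μ * (ε / lam * μ) := mul_le_mul_of_nonneg_left this (by positivity)
      _ = ε := by field_simp

lemma multi_weight (ha : Function.Injective a) (h : CritR a) (lam : ℕ → ℝ) {ε : ℝ} (hε : 0 < ε)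
    (n : ℕ) (hl : ∀ q < n, 0 < lam q) :
    ∃ γ s, Pos a γ s ∧ γ.trace ≤ n * ε ∧ ∀ q < n, Pos a (γ + lam q • 1) s := by
  induction n with
  | zero => exact ⟨0, 1, Pos.one, by simp, by simp⟩
  | succ n ih =>
    obtain ⟨γ, s, h1, h2, h3⟩ := ih fun q hq => hl q (by omega)
    obtain ⟨γ', s', k1, k2, k3⟩ := two_weight ha h (hl n (by omega)) hε
    refine ⟨_, _, h1.mul k1, by rw [Matrix.trace_add]; push_cast; linarith, fun q hq => ?_⟩
    rcases Nat.lt_succ_iff_lt_or_eq.mp hq with hq | rfl
    · exact ((h3 q hq).mul k1).cast (by abel) rfl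
    · exact (h1.mul k2).cast (by abel) rfl

lemma line_pos {J : Type*} (L : J → Option ι) (N : ι → FF) (η : ℝ)
    (hN : Pos a (η • 1) N) (l : List J) :
    Pos a ((((l.countP fun j => (L j).isNone) : ℝ) * η) • 1)
        (fun i => (l.map fun j => N ((L j).getD i)).prod) ∧
      ∀ lam : ℝ, Pos a (η • 1 + lam • 1) N → 0 < (l.countP fun j => (L j).isNone) →
        Pos a ((((l.countP fun j => (L j).isNone) : ℝ) * η + lam) • 1)
          (fun i => (l.map fun j => N ((L j).getD i)).prod) := by
  induction l with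
  | nil => exact ⟨by simpa using Pos.const 1, by simp⟩
  | cons j l ih =>
    cases hj : L j with
    | none =>
      refine ⟨(hN.mul ih.1).cast ?_ ?_, fun lam h _ => (h.mul ih.1).cast ?_ ?_⟩
      · simp [hj]; module
      · ext1 i; simp [hj]
      · simp [hj]; module
      · ext1 i; simp [hj]
    | some x =>
      refine ⟨((Pos.const (N x)).mul ih.1).cast ?_ ?_, fun lam h h' =>
        ((Pos.const (N x)).mul (ih.2 lam h (by simpa [hj] using h'))).cast ?_ ?_⟩
      · simp [hj]
      · ext1 i; simp [hj]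
      · simp [hj]
      · ext1 i; simp [hj]

/-- Every finite colouring of the free group has a monochromatic positive tuple of weight `1`. -/
theorem free_ramsey (ha : Function.Injective a) (h : CritR a) {κ : Type*} [Finite κ]
    (c : FF → κ) : ∃ t, Pos a 1 t ∧ ∃ k, ∀ i, c (t i) = k := by
  classical
  obtain ⟨J, _, hJ⟩ := Combinatorics.Line.exists_mono_in_high_dimension ι κ
  set Q := Fintype.card J with hQ
  set η : ℝ := 1 / (Q + 1) with hη
  have hη0 : 0 < η := by positivity
  have hη1 : (Q + 1) * η = 1 := by rw [hη]; field_simp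
  obtain ⟨γ, s, h1, h2, h3⟩ := multi_weight ha h (fun q => 1 - q * η) (ε := η / (Q + 1))
    (by positivity) (Q + 1) (fun q hq => by
      have : (q : ℝ) < Q + 1 := by exact_mod_cast hq
      nlinarith)
  have h4 : γ.trace ≤ η := h2.trans (le_of_eq (by push_cast; field_simp))
  obtain ⟨f1, hf1⟩ := h1.fill
  obtain ⟨f2, hf2⟩ := exists_pos_scalar (a := a) (r := η - γ.trace) (by linarith)
  set N := s * f1 * f2 with hN
  have hN1 : Pos a (η • 1) N := ((h1.mul hf1).mul hf2).cast (by module) rfl
  have hN2 : ∀ q < Q + 1, Pos a (η • 1 + (1 - q * η) • 1) N := fun q hq =>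
    (((h3 q hq).mul hf1).mul hf2).cast (by module) rfl
  let l : List J := Finset.univ.toList
  obtain ⟨L, k, hk⟩ := hJ fun v => c (l.map fun j => N (v j)).prod
  have hq : (l.countP fun j => (L.idxFun j).isNone) < Q + 1 := by
    have := List.countP_le_length (p := fun j => (L.idxFun j).isNone) (l := l)
    simp only [l, Finset.length_toList, Finset.card_univ] at this ⊢
    omega
  have hq0 : 0 < (l.countP fun j => (L.idxFun j).isNone) := by
    obtain ⟨j, hj⟩ := L.proper
    exact List.countP_pos_iff.mpr ⟨j, by simp [l], by simp [hj]⟩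
  refine ⟨_, ((line_pos L.idxFun N η hN1 l).2 _ (hN2 _ hq) hq0).cast (by simp) rfl, k, fun i => ?_⟩
  exact hk i

end

end Vale.Agent.P058
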